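import Mathlib.Analysis.SpecialFunctions.Gamma.Basic
import Mathlib.Analysis.SpecialFunctions.Pow.Complex

/-!
P016, block SC: the Mellin transform of the radial weights.
-/

namespace Vale.Agent.P016Z.Sc

/-- `c c3^w Γ(w)^r ∏ (1 - q_i^(-w))⁻¹ exp(a (w - 1/2)²)` -/
noncomputable def rho (c c3 a : ℝ) (r : ℕ) {S : Type} [Fintype S] (q : S → ℝ) (w : ℂ) : ℂ :=
  (c : ℂ) * (c3 : ℂ) ^ w * Complex.Gamma w ^ r * (∏ i : S, (1 - (q i : ℂ) ^ (-w))⁻¹) *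
    Complex.exp ((a : ℂ) * (w - 1 / 2) ^ 2)

/-- `T` is the inverse Mellin transform of `ρ` on every line `Re = σ > 0` -/
def InvMel (T : ℝ → ℝ) (ρ : ℂ → ℂ) : Prop :=
  ∀ σ : ℝ, 0 < σ → ∀ x : ℝ, 0 < x → (T x : ℂ) = (1 / (2 * (Real.pi : ℂ))) *
    ∫ t : ℝ, ρ ((σ : ℂ) + t * Complex.I) * (x : ℂ) ^ (-((σ : ℂ) + t * Complex.I))

end Vale.Agent.P016Z.Sc
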