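import Vale.Agent.P016Z.Sc.Mod
import Vale.Agent.P016Z.Sc.Rho
import Mathlib.Analysis.SpecialFunctions.Gamma.Beta
import Mathlib.Analysis.SpecialFunctions.Gaussian.FourierTransform
import Mathlib.MeasureTheory.Integral.Pi

/-!
P016, block SC: Mellin inversion of the radial weight.
-/

namespace Vale.Agent.P016Z.Sc

open MeasureTheory Complex
open scoped ENNReal Real

namespace Mel

theorem cpow_pos {y : ℝ} (hy : 0 < y) (w : ℂ) : (y : ℂ) ^ w = cexp ((Real.log y : ℝ) * w) := by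
  rw [cpow_def_of_ne_zero (ofReal_ne_zero.2 hy.ne'), ofReal_log hy.le]

/-- the factor of a finite place -/
noncomputable def fZ (q : ℝ) (w : ℂ) (n : ℤ) : ℂ :=
  if 0 ≤ n then cexp (-(w * (n * (Real.log q : ℝ)))) else 0

/-- the factor of an infinite place -/
noncomputable def fR (w : ℂ) (u : ℝ) : ℂ := cexp (w * u - (2 * π * Real.exp u : ℝ))

theorem hasSum_fZ {q : ℝ} (hq : 1 < q) {w : ℂ} (hw : 0 < w.re) :
    HasSum (fZ q w) (1 - (q : ℂ) ^ (-w))⁻¹ := by
  have hq0 : 0 < q := by linarith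
  have hn : ‖(q : ℂ) ^ (-w)‖ < 1 := by
    rw [norm_cpow_eq_rpow_re_of_pos hq0]
    exact Real.rpow_lt_one_of_one_lt_of_neg hq (by rw [neg_re]; linarith)
  have h := hasSum_geometric_of_norm_lt_one hn
  have hinj : Function.Injective (Nat.cast : ℕ → ℤ) := Nat.cast_injective
  rw [← hinj.hasSum_iff]
  · have e : (fZ q w ∘ (Nat.cast : ℕ → ℤ)) = fun n : ℕ => ((q : ℂ) ^ (-w)) ^ n := by
      funext n
      simp only [Function.comp, fZ]
      rw [if_pos (Int.natCast_nonneg n), cpow_pos hq0, ← Complex.exp_nat_mul]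
      congr 1
      push_cast
      ring
    rw [e]
    exact h
  · intro x hx
    unfold fZ
    rw [if_neg]
    intro h0
    exact hx ⟨x.toNat, Int.toNat_of_nonneg h0⟩

theorem integrable_fZ {q : ℝ} (hq : 1 < q) {w : ℂ} (hw : 0 < w.re) :
    Integrable (fZ q w) (Measure.count : Measure ℤ) :=
  integrable_count_iff.2 (summable_norm_iff.2 (hasSum_fZ hq hw).summable)

theorem integral_fZ {q : ℝ} (hq : 1 < q) {w : ℂ} (hw : 0 < w.re) :
    ∫ n, fZ q w n ∂(Measure.count : Measure ℤ) = (1 - (q : ℂ) ^ (-w))⁻¹ := by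
  rw [integral_countable (integrable_fZ hq hw), ← (hasSum_fZ hq hw).tsum_eq]
  refine tsum_congr fun n => ?_
  rw [measureReal_def, Measure.count_singleton, ENNReal.toReal_one, one_smul]

theorem integral_fR {w : ℂ} (hw : 0 < w.re) :
    ∫ u, fR w u = ((1 / (2 * π) : ℝ) : ℂ) ^ w * Gamma w := by
  have h1 := integral_cpow_mul_exp_neg_mul_Ioi hw (r := 2 * π) (by positivity)
  have h2 := integral_image_eq_integral_abs_deriv_smul (s := Set.univ) (f := Real.exp)
    (f' := Real.exp) MeasurableSet.univ (fun x _ => (Real.hasDerivAt_exp x).hasDerivWithinAt)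
    Real.exp_injective.injOn
    (fun t : ℝ => (t : ℂ) ^ (w - 1) * cexp (-(((2 * π : ℝ) : ℂ) * t)))
  rw [Set.image_univ, Real.range_exp, Measure.restrict_univ, h1] at h2
  rw [ofReal_div, ofReal_one, h2]
  refine integral_congr_ae (Filter.Eventually.of_forall fun u => ?_)
  simp only [fR]
  rw [abs_of_pos (Real.exp_pos u), cpow_pos (Real.exp_pos u), Real.log_exp, real_smul,
    ofReal_exp u, ← Complex.exp_add, ← Complex.exp_add]
  congr 1
  push_cast
  ring

theorem integrable_fR {w : ℂ} (hw : 0 < w.re) : Integrable (fR w) := by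
  refine Integrable.of_integral_ne_zero ?_
  rw [integral_fR hw, cpow_pos (by positivity)]
  exact mul_ne_zero (Complex.exp_ne_zero _) (Gamma_ne_zero_of_re_pos hw)

variable {S ι : Type} [Fintype S] [Fintype ι] {q : S → ℝ}

theorem integrand_eq (q : S → ℝ) (w : ℂ) (g : GG S ι) :
    ((eG g).toReal : ℂ) * cexp (w * ellG q g) =
      (∏ i, fZ (q i) w (g.1 i)) * ∏ j, fR w (g.2 j) := by
  unfold eG
  by_cases h : 0 ≤ g.1
  · have e1 : ∏ i, fZ (q i) w (g.1 i) =
        ∏ i, cexp (-(w * (g.1 i * (Real.log (q i) : ℝ)))) :=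
      Finset.prod_congr rfl fun i _ => if_pos (h i)
    rw [if_pos h, ENNReal.toReal_ofReal (Real.exp_pos _).le, e1, ofReal_exp]
    unfold fR
    rw [← Complex.exp_sum, ← Complex.exp_sum, ← Complex.exp_add, ← Complex.exp_add, ellG_apply]
    congr 1
    push_cast
    rw [Finset.sum_sub_distrib, Finset.sum_neg_distrib, ← Finset.mul_sum, ← Finset.mul_sum,
      ← Finset.mul_sum]
    ring
  · rw [if_neg h, ENNReal.toReal_zero, ofReal_zero, zero_mul]
    obtain ⟨i, hi⟩ : ∃ i, ¬ 0 ≤ g.1 i := not_forall.1 h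
    rw [Finset.prod_eq_zero (Finset.mem_univ i) (if_neg hi), zero_mul]

theorem integrable_mom (hq : ∀ i, 1 < q i) {w : ℂ} (hw : 0 < w.re) :
    Integrable (fun g : GG S ι => ((eG g).toReal : ℂ) * cexp (w * ellG q g)) (muG S ι) := by
  simp only [integrand_eq]
  exact Integrable.mul_prod (f := fun v : S → ℤ => ∏ i, fZ (q i) w (v i))
    (g := fun u : ι → ℝ => ∏ j, fR w (u j))
    (Integrable.fintype_prod fun i => integrable_fZ (hq i) hw)
    (Integrable.fintype_prod (f := fun _ : ι => fR w) fun _ => integrable_fR hw)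

theorem norm_mom (q : S → ℝ) (w : ℂ) (g : GG S ι) :
    ‖((eG g).toReal : ℂ) * cexp (w * ellG q g)‖ = (eG g).toReal * Real.exp (w.re * ellG q g) := by
  rw [norm_mul, norm_real, Real.norm_of_nonneg ENNReal.toReal_nonneg, Complex.norm_exp,
    mul_re, ofReal_re, ofReal_im, mul_zero, sub_zero]

/-- the Gaussian as a vertical integral -/
theorem gauss_eq {a : ℝ} (ha : 0 < a) (σ y : ℝ) :
    ((Real.exp (y / 2 - y ^ 2 / (4 * a)) : ℝ) : ℂ) = (Real.sqrt (a / π) : ℝ) *
      ∫ t : ℝ, cexp (a * ((σ : ℂ) + t * I - 1 / 2) ^ 2) * cexp (((σ : ℂ) + t * I) * y) := by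
  have hb : (-(a : ℂ)).re < 0 := by
    rw [neg_re, ofReal_re]
    linarith
  have ha' : (a : ℂ) ≠ 0 := ofReal_ne_zero.2 ha.ne'
  have h := integral_cexp_quadratic hb (I * (2 * a * (σ - 1 / 2) + y))
    (a * (σ - 1 / 2) ^ 2 + σ * y)
  have e : ∀ t : ℝ, cexp (a * ((σ : ℂ) + t * I - 1 / 2) ^ 2) * cexp (((σ : ℂ) + t * I) * y) =
      cexp (-(a : ℂ) * t ^ 2 + I * (2 * a * (σ - 1 / 2) + y) * t +
        (a * (σ - 1 / 2) ^ 2 + σ * y)) := by
    intro t
    rw [← Complex.exp_add]
    congr 1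
    linear_combination (a * t ^ 2) * I_sq
  simp only [e]
  rw [h, neg_neg, ← mul_assoc]
  have e2 : ((Real.sqrt (a / π) : ℝ) : ℂ) * ((π : ℂ) / a) ^ (1 / 2 : ℂ) = 1 := by
    have h1 : ((π : ℂ) / a) ^ (1 / 2 : ℂ) = ((Real.sqrt (π / a) : ℝ) : ℂ) := by
      rw [Real.sqrt_eq_rpow, ofReal_cpow (by positivity)]
      push_cast
      rfl
    rw [h1, ← ofReal_mul, ← Real.sqrt_mul (by positivity)]
    have h2 : a / π * (π / a) = 1 := by field_simp
    rw [h2, Real.sqrt_one, ofReal_one]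
  rw [e2, one_mul, ofReal_exp]
  congr 1
  push_cast
  rw [mul_pow, I_sq]
  field_simp
  ring

theorem integrable_gauss {a : ℝ} (ha : 0 < a) (σ : ℝ) :
    Integrable fun t : ℝ => cexp (a * ((σ : ℂ) + t * I - 1 / 2) ^ 2) := by
  have hb : (-(a : ℂ)).re < 0 := by
    rw [neg_re, ofReal_re]
    linarith
  have h := integrable_cexp_quadratic' hb (I * (2 * a * (σ - 1 / 2))) (a * (σ - 1 / 2) ^ 2)
  refine h.congr (Filter.Eventually.of_forall fun t => ?_)
  simp only
  congr 1
  linear_combination (-(a * t ^ 2)) * I_sq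

end Mel

open Mel

variable {S ι : Type} [Fintype S] [Fintype ι] {q : S → ℝ}

theorem mom_ne_top (hq : ∀ i, 1 < q i) {σ : ℝ} (hs : 0 < σ) :
    ∫⁻ g, eG g * ENNReal.ofReal (Real.exp (σ * ellG q g)) ∂(muG S ι) ≠ ⊤ := by
  have h := (integrable_mom (ι := ι) hq (w := (σ : ℂ)) (by rwa [ofReal_re])).2
  rw [hasFiniteIntegral_iff_norm] at h
  refine ne_of_lt (lt_of_eq_of_lt (lintegral_congr fun g => ?_) h)
  rw [norm_mom, ofReal_re, ENNReal.ofReal_mul ENNReal.toReal_nonneg,
    ENNReal.ofReal_toReal ((eG_le_one g).trans_lt ENNReal.one_lt_top).ne]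

theorem mom_eq (hq : ∀ i, 1 < q i) {w : ℂ} (hw : 0 < w.re) :
    ∫ g, ((eG g).toReal : ℂ) * Complex.exp (w * ellG q g) ∂(muG S ι) =
      (∏ i, (1 - (q i : ℂ) ^ (-w))⁻¹) *
        (((1 / (2 * π) : ℝ) : ℂ) ^ w * Gamma w) ^ Fintype.card ι := by
  simp only [integrand_eq]
  unfold muG
  rw [integral_prod_mul (fun v : S → ℤ => ∏ i, fZ (q i) w (v i))
    (fun u : ι → ℝ => ∏ j, fR w (u j)),
    integral_fintype_prod_eq_prod (fun i => fZ (q i) w), integral_fintype_prod_volume_eq_pow,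
    integral_fR hw]
  congr 1
  exact Finset.prod_congr rfl fun i _ => integral_fZ (hq i) hw

theorem invMel (hq : ∀ i, 1 < q i) {a c C : ℝ} (ha : 0 < a) (hc : 0 < c) (hC : 0 < C) :
    InvMel (fun x => (TG ι q (kap a) (Real.log x - Real.log C)).toReal / c)
      (rho (2 * π * Real.sqrt (a / π) / c) (C / (2 * π) ^ Fintype.card ι) a (Fintype.card ι) q) := by
  intro σ hσ x hx
  set s : ℝ := Real.log x - Real.log C with hs
  have hre : ∀ t : ℝ, ((σ : ℂ) + t * I).re = σ := fun t => by simp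
  have hml : Measurable (ellG q : GG S ι → ℝ) := measurable_ellG q
  have hme : Measurable (eG : GG S ι → ℝ≥0∞) := measurable_eG
  -- the weight as a Bochner integral
  have h1 : ((TG ι q (kap a) s).toReal : ℂ) = ∫ g, ((eG g).toReal : ℂ) *
      ((Real.exp ((ellG q g - s) / 2 - (ellG q g - s) ^ 2 / (4 * a)) : ℝ) : ℂ) ∂(muG S ι) := by
    unfold TG
    have hm : Measurable fun g : GG S ι => eG g * kap a (ellG q g - s) :=
      hme.mul ((measurable_kap a).comp (hml.sub_const s))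
    rw [← integral_toReal hm.aemeasurable
      (Filter.Eventually.of_forall fun g => ENNReal.mul_lt_top
        ((eG_le_one g).trans_lt ENNReal.one_lt_top) ENNReal.ofReal_lt_top), ← integral_complex_ofReal]
    refine integral_congr_ae (Filter.Eventually.of_forall fun g => ?_)
    simp only [kap]
    rw [ENNReal.toReal_mul, ENNReal.toReal_ofReal (Real.exp_pos _).le]
    exact ofReal_mul _ _
  set F : GG S ι → ℝ → ℂ := fun g t => ((eG g).toReal : ℂ) *
    (cexp (a * ((σ : ℂ) + t * I - 1 / 2) ^ 2) *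
      cexp (((σ : ℂ) + t * I) * ((ellG q g - s : ℝ) : ℂ))) with hF
  have hint : Integrable (Function.uncurry F) ((muG S ι).prod volume) := by
    have hb := ((integrable_mom (ι := ι) hq (w := (σ : ℂ)) (by rwa [ofReal_re])).norm).mul_prod
      (((integrable_gauss ha σ).norm).mul_const (Real.exp (-(σ * s))))
    refine hb.mono' ?_ (Filter.Eventually.of_forall fun z => le_of_eq ?_)
    · refine Measurable.aestronglyMeasurable ?_
      have m1 : Measurable fun z : GG S ι × ℝ => ((eG z.1).toReal : ℂ) :=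
        measurable_ofReal.comp (hme.ennreal_toReal.comp measurable_fst)
      have m2 : Measurable fun z : GG S ι × ℝ => ((ellG q z.1 - s : ℝ) : ℂ) :=
        measurable_ofReal.comp ((hml.comp measurable_fst).sub_const s)
      have m3 : Measurable fun z : GG S ι × ℝ => (σ : ℂ) + z.2 * I :=
        ((measurable_ofReal.comp measurable_snd).mul_const I).const_add _
      exact m1.mul ((measurable_exp.comp (((m3.sub_const _).pow_const 2).const_mul _)).mul
        (measurable_exp.comp (m3.mul m2)))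
    · rw [norm_mom, ofReal_re]
      simp only [Function.uncurry, hF]
      rw [norm_mul, norm_mul, norm_real, Real.norm_of_nonneg ENNReal.toReal_nonneg,
        Complex.norm_exp (((σ : ℂ) + z.2 * I) * _), mul_re, hre, ofReal_re, ofReal_im, mul_zero,
        sub_zero, mul_sub, sub_eq_add_neg (σ * ellG q z.1), Real.exp_add]
      ring
  have h2 : ∫ g, ((eG g).toReal : ℂ) *
      ((Real.exp ((ellG q g - s) / 2 - (ellG q g - s) ^ 2 / (4 * a)) : ℝ) : ℂ) ∂(muG S ι) =
      (Real.sqrt (a / π) : ℝ) * ∫ g, (∫ t, F g t) ∂(muG S ι) := by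
    rw [← integral_const_mul]
    refine integral_congr_ae (Filter.Eventually.of_forall fun g => ?_)
    simp only [hF]
    rw [gauss_eq ha σ, integral_const_mul]
    ring
  have h3 : ∀ t : ℝ, ∫ g, F g t ∂(muG S ι) =
      (cexp (a * ((σ : ℂ) + t * I - 1 / 2) ^ 2) * cexp (-(((σ : ℂ) + t * I) * s))) *
        ((∏ i, (1 - (q i : ℂ) ^ (-((σ : ℂ) + t * I)))⁻¹) *
        (((1 / (2 * π) : ℝ) : ℂ) ^ ((σ : ℂ) + t * I) * Gamma ((σ : ℂ) + t * I)) ^
          Fintype.card ι) := by
    intro t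
    rw [← mom_eq (ι := ι) hq (by rw [hre]; exact hσ), ← integral_const_mul]
    refine integral_congr_ae (Filter.Eventually.of_forall fun g => ?_)
    simp only [hF]
    rw [ofReal_sub, mul_sub, sub_eq_add_neg (((σ : ℂ) + t * I) * _), Complex.exp_add]
    ring
  simp only
  rw [ofReal_div, h1, h2, integral_integral_swap hint, ← integral_const_mul, ← integral_div,
    ← integral_const_mul]
  refine integral_congr_ae (Filter.Eventually.of_forall fun t => ?_)
  simp only
  rw [h3]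
  unfold rho
  have hπ : (0 : ℝ) < 2 * π := by positivity
  have e1 : ((C / (2 * π) ^ Fintype.card ι : ℝ) : ℂ) ^ ((σ : ℂ) + t * I) *
      (x : ℂ) ^ (-((σ : ℂ) + t * I)) = cexp (-(((σ : ℂ) + t * I) * s)) *
        (((1 / (2 * π) : ℝ) : ℂ) ^ ((σ : ℂ) + t * I)) ^ Fintype.card ι := by
    rw [cpow_pos (by positivity), cpow_pos hx, cpow_pos (by positivity), ← Complex.exp_nat_mul,
      ← Complex.exp_add, ← Complex.exp_add, Real.log_div hC.ne' (by positivity), Real.log_pow,
      one_div, Real.log_inv, hs]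
    congr 1
    push_cast
    ring
  have hπ' : (π : ℂ) ≠ 0 := ofReal_ne_zero.2 Real.pi_ne_zero
  have hc' : (c : ℂ) ≠ 0 := ofReal_ne_zero.2 hc.ne'
  have e2 : (1 / (2 * (π : ℂ))) * ((2 * π * Real.sqrt (a / π) / c : ℝ) : ℂ) =
      (Real.sqrt (a / π) : ℝ) / c := by
    push_cast
    field_simp
  rw [mul_pow]
  linear_combination
    (-(cexp (a * ((σ : ℂ) + t * I - 1 / 2) ^ 2) * (∏ i, (1 - (q i : ℂ) ^ (-((σ : ℂ) + t * I)))⁻¹) *
      Gamma ((σ : ℂ) + t * I) ^ Fintype.card ι)) *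
      ((((C / (2 * π) ^ Fintype.card ι : ℝ) : ℂ) ^ ((σ : ℂ) + t * I) *
        (x : ℂ) ^ (-((σ : ℂ) + t * I))) * e2 + ((Real.sqrt (a / π) : ℝ) / c : ℂ) * e1)

end Vale.Agent.P016Z.Sc
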