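import Vale.Agent.P016Z.Ab.Rad
import Vale.Agent.P026Z.Vor.Shift
import Mathlib.Analysis.Complex.RemovableSingularity
import Mathlib.Analysis.SpecialFunctions.ImproperIntegrals
import Mathlib.MeasureTheory.Measure.Haar.NormedSpace

/-!
P016, block SC3: vertical integrals, crossing a simple pole.
-/

namespace Vale.Agent.P016Z.Sc

open MeasureTheory Filter Topology Set Complex Asymptotics
open scoped Real ComplexConjugate

/-- quadratic decay in a vertical strip -/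
def Dec (F : ℂ → ℂ) (a b : ℝ) : Prop :=
  ∃ C : ℝ, ∀ w : ℂ, a ≤ w.re → w.re ≤ b → 1 ≤ |w.im| → ‖F w‖ ≤ C * (1 + w.im ^ 2)⁻¹

variable {F G : ℂ → ℂ} {a b σ : ℝ}

theorem Dec.mono (h : Dec F a b) {a' b' : ℝ} (ha : a ≤ a') (hb : b' ≤ b) : Dec F a' b' :=
  h.imp fun _ h w h1 h2 => h w (ha.trans h1) (h2.trans hb)

theorem Dec.mul (h : Dec F a b) {K : ℝ}
    (hG : ∀ w : ℂ, a ≤ w.re → w.re ≤ b → 1 ≤ |w.im| → ‖G w‖ ≤ K) :
    Dec (fun w => F w * G w) a b := by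
  obtain ⟨C, hC⟩ := h
  refine ⟨C * K, fun w h1 h2 h3 => ?_⟩
  rw [norm_mul, mul_right_comm]
  exact mul_le_mul (hC w h1 h2 h3) (hG w h1 h2 h3) (norm_nonneg _)
    ((norm_nonneg _).trans (hC w h1 h2 h3))

theorem Dec.sub (h : Dec F a b) (h' : Dec G a b) : Dec (fun w => F w - G w) a b := by
  obtain ⟨C, hC⟩ := h
  obtain ⟨C', hC'⟩ := h'
  refine ⟨C + C', fun w h1 h2 h3 => (norm_sub_le _ _).trans ?_⟩
  rw [add_mul]
  exact add_le_add (hC w h1 h2 h3) (hC' w h1 h2 h3)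

theorem Dec.congr (h : Dec F a b) (e : ∀ w : ℂ, a ≤ w.re → w.re ≤ b → 1 ≤ |w.im| → G w = F w) :
    Dec G a b := h.imp fun _ h w h1 h2 h3 => e w h1 h2 h3 ▸ h w h1 h2 h3

theorem exp_neg_le {δ : ℝ} (hδ : 0 < δ) (t : ℝ) :
    Real.exp (-(δ * t ^ 2)) ≤ (1 + δ⁻¹) * (1 + t ^ 2)⁻¹ := by
  have h1 : δ * t ^ 2 + 1 ≤ Real.exp (δ * t ^ 2) := Real.add_one_le_exp _
  have h2 : 1 + t ^ 2 ≤ (1 + δ⁻¹) * (δ * t ^ 2 + 1) := by
    have : δ⁻¹ * δ = 1 := inv_mul_cancel₀ hδ.ne'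
    have h3 : 0 < δ⁻¹ := inv_pos.2 hδ
    nlinarith [mul_nonneg hδ.le (sq_nonneg t), sq_nonneg t]
  rw [Real.exp_neg, ← div_eq_mul_inv, le_div_iff₀ (by positivity), inv_mul_le_iff₀ (Real.exp_pos _),
    mul_comm]
  exact h2.trans (by gcongr)

theorem Dec.of_gauss {δ C : ℝ} (hδ : 0 < δ) (h : ∀ w : ℂ, a ≤ w.re → w.re ≤ b → 1 ≤ |w.im| →
    ‖F w‖ ≤ C * Real.exp (-(δ * w.im ^ 2))) : Dec F a b := by
  refine ⟨|C| * (1 + δ⁻¹), fun w h1 h2 h3 => (h w h1 h2 h3).trans ?_⟩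
  rw [mul_assoc]
  exact mul_le_mul (le_abs_self C) (exp_neg_le hδ _) (Real.exp_pos _).le (abs_nonneg C)

theorem Dec.line (h : Dec F σ σ) (hc : Continuous fun t : ℝ => F (σ + t * I)) :
    ∃ C : ℝ, 0 < C ∧ ∀ t : ℝ, ‖F (σ + t * I)‖ ≤ C * (1 + t ^ 2)⁻¹ := by
  obtain ⟨C, hC⟩ := h
  obtain ⟨K, hK⟩ := (isCompact_Icc (a := (-1 : ℝ)) (b := 1)).exists_bound_of_continuousOn
    hc.continuousOn
  refine ⟨|C| + 2 * |K| + 1, by positivity, fun t => ?_⟩
  have p : 0 < (1 + t ^ 2)⁻¹ := by positivity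
  rcases le_total 1 |t| with h1 | h1
  · have := hC (σ + t * I) (by simp) (by simp) (by simpa using h1)
    simp only [add_im, ofReal_im, mul_im, ofReal_re, I_im, mul_one, I_re, mul_zero, add_zero,
      zero_add] at this
    exact this.trans (by gcongr; linarith [le_abs_self C, abs_nonneg K])
  · refine (hK t (abs_le.1 h1)).trans ?_
    rw [← div_eq_mul_inv, le_div_iff₀ (by positivity)]
    have : t ^ 2 ≤ 1 := by rw [← sq_abs]; nlinarith [abs_nonneg t]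
    nlinarith [le_abs_self K, abs_nonneg K, abs_nonneg C, sq_nonneg t]

theorem Dec.int (h : Dec F σ σ) (hc : Continuous fun t : ℝ => F (σ + t * I)) :
    Integrable fun t : ℝ => F (σ + t * I) := by
  obtain ⟨C, -, hC⟩ := h.line hc
  exact (integrable_inv_one_add_sq.const_mul C).mono' hc.aestronglyMeasurable (ae_of_all _ hC)

theorem cont_line (hd : ∀ w : ℂ, w.re = σ → DifferentiableAt ℂ F w) :
    Continuous fun t : ℝ => F (σ + t * I) :=
  continuous_iff_continuousAt.2 fun t => ContinuousAt.comp (f := fun t : ℝ => (σ : ℂ) + t * I)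
    (hd _ (by simp)).continuousAt (by fun_prop)

theorem Dec.shift (h : Dec F a b) (hab : a ≤ b)
    (hd : ∀ w : ℂ, a ≤ w.re → w.re ≤ b → DifferentiableAt ℂ F w) :
    ∫ t : ℝ, F (a + t * I) = ∫ t : ℝ, F (b + t * I) := by
  have h0 := (h.mono le_rfl hab).int (cont_line fun w e => hd w e.ge (e.le.trans hab))
  have h1 := (h.mono hab le_rfl).int (cont_line fun w e => hd w (hab.trans e.ge) e.le)
  obtain ⟨C, hC⟩ := h
  refine P026Z.Vor.shift_of_decay hab hd (g := fun t => C * (1 + t ^ 2)⁻¹) ?_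
    (fun w h1 h2 h3 => by simpa using hC w h1 h2 h3) h0 h1
  have := (tendsto_atTop_add_const_left atTop 1
    (tendsto_pow_atTop (α := ℝ) two_ne_zero)).inv_tendsto_atTop.const_mul C
  simpa using this

theorem norm_inv_le {w : ℂ} (h : 1 ≤ |w.im|) : ‖(w - 1 / 2)⁻¹‖ ≤ 1 := by
  rw [norm_inv]
  refine inv_le_one_of_one_le₀ (h.trans ?_)
  simpa using abs_im_le_norm (w - 1 / 2)

theorem ne_half {w : ℂ} (h : w.re ≠ 1 / 2) : w - 1 / 2 ≠ 0 := fun e => h (by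
  rw [sub_eq_zero.1 e]; norm_num)

theorem norm_gauss (w : ℂ) :
    ‖cexp ((w - 1 / 2) ^ 2)‖ = Real.exp ((w.re - 1 / 2) ^ 2 - w.im ^ 2) := by
  rw [norm_exp]
  congr 1
  simp [sq]

theorem dec_gauss (a b : ℝ) : Dec (fun w => cexp ((w - 1 / 2) ^ 2)) a b :=
  Dec.of_gauss (C := Real.exp ((|a| + |b| + 1) ^ 2)) one_pos fun w h1 h2 _ => by
    rw [norm_gauss, ← Real.exp_add, Real.exp_le_exp]
    have : (w.re - 1 / 2) ^ 2 ≤ (|a| + |b| + 1) ^ 2 := sq_le_sq' (by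
      linarith [neg_abs_le a, abs_nonneg b]) (by linarith [le_abs_self b, abs_nonneg a])
    linarith

/-- crossing the simple pole at `1/2` -/
theorem shift_pole : ∃ κ : ℂ, ∀ G : ℂ → ℂ, DifferentiableOn ℂ G {w | 0 < w.re} → Dec G (1 / 4) 1 →
    ∫ t : ℝ, G ((1 : ℝ) + t * I) * (((1 : ℝ) : ℂ) + t * I - 1 / 2)⁻¹ =
      (∫ t : ℝ, G ((1 / 4 : ℝ) + t * I) * (((1 / 4 : ℝ) : ℂ) + t * I - 1 / 2)⁻¹) +
        κ * G (1 / 2) := by
  have hU : IsOpen {w : ℂ | 0 < w.re} := isOpen_lt continuous_const continuous_re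
  have int : ∀ G : ℂ → ℂ, DifferentiableOn ℂ G {w | 0 < w.re} → Dec G (1 / 4) 1 →
      ∀ σ : ℝ, σ = 1 / 4 ∨ σ = 1 →
      Integrable fun t : ℝ => G (σ + t * I) * ((σ : ℂ) + t * I - 1 / 2)⁻¹ := by
    intro G hG hD σ hσ
    have h1 : 1 / 4 ≤ σ ∧ σ ≤ 1 ∧ σ ≠ 1 / 2 := by rcases hσ with rfl | rfl <;> norm_num
    refine Dec.int (F := fun w => G w * (w - 1 / 2)⁻¹)
      ((hD.mono h1.1 h1.2.1).mul fun w _ _ h => norm_inv_le h)
      (cont_line (F := fun w => G w * (w - 1 / 2)⁻¹) fun w e => ?_)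
    exact (hG.differentiableAt (hU.mem_nhds (show 0 < w.re by linarith [h1.1]))).mul
      ((differentiableAt_id.sub_const _).inv (ne_half (e ▸ h1.2.2)))
  have dE : DifferentiableOn ℂ (fun w : ℂ => cexp ((w - 1 / 2) ^ 2)) {w | 0 < w.re} := by fun_prop
  have iE := int _ dE (dec_gauss _ _)
  refine ⟨(∫ t : ℝ, cexp ((((1 : ℝ) : ℂ) + t * I - 1 / 2) ^ 2) * (((1 : ℝ) : ℂ) + t * I - 1 / 2)⁻¹) -
    ∫ t : ℝ, cexp ((((1 / 4 : ℝ) : ℂ) + t * I - 1 / 2) ^ 2) *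
      (((1 / 4 : ℝ) : ℂ) + t * I - 1 / 2)⁻¹, fun G hG hD => ?_⟩
  set H : ℂ → ℂ := fun w => G w - cexp ((w - 1 / 2) ^ 2) * G (1 / 2) with hH
  have e : ∀ w : ℂ, w - 1 / 2 ≠ 0 → dslope H (1 / 2) w =
      G w * (w - 1 / 2)⁻¹ - cexp ((w - 1 / 2) ^ 2) * (w - 1 / 2)⁻¹ * G (1 / 2) := by
    intro w hw
    rw [dslope_of_ne _ (sub_ne_zero.1 hw), slope_def_field]
    simp only [hH, sub_self, ne_eq, OfNat.ofNat_ne_zero, not_false_eq_true, zero_pow, exp_zero,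
      one_mul]
    ring
  have dH : DifferentiableOn ℂ (dslope H (1 / 2)) {w | 0 < w.re} :=
    (differentiableOn_dslope (hU.mem_nhds (by norm_num))).2 (hG.sub (dE.mul_const _))
  have hs := Dec.shift (F := dslope H (1 / 2)) (a := 1 / 4) (b := 1)
    (((hD.mul fun w _ _ h => norm_inv_le h).sub (((dec_gauss _ _).mul
      fun w _ _ h => norm_inv_le h).mul fun _ _ _ _ => le_refl ‖G (1 / 2)‖)).congr
      fun w _ _ h => e w fun h0 => by
        rw [sub_eq_zero.1 h0] at h; norm_num at h) (by norm_num)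
    fun w h _ => dH.differentiableAt (hU.mem_nhds (show 0 < w.re by linarith))
  have e1 : ∀ σ : ℝ, σ = 1 / 4 ∨ σ = 1 → ∫ t : ℝ, dslope H (1 / 2) (σ + t * I) =
      (∫ t : ℝ, G (σ + t * I) * ((σ : ℂ) + t * I - 1 / 2)⁻¹) -
      (∫ t : ℝ, cexp (((σ : ℂ) + t * I - 1 / 2) ^ 2) * ((σ : ℂ) + t * I - 1 / 2)⁻¹) * G (1 / 2) := by
    intro σ hσ
    rw [← integral_mul_const, ← integral_sub (int G hG hD σ hσ) ((iE σ hσ).mul_const _)]
    refine integral_congr_ae (ae_of_all _ fun t => e _ (ne_half ?_))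
    rcases hσ with rfl | rfl <;> norm_num
  rw [e1 _ (Or.inl rfl), e1 _ (Or.inr rfl)] at hs
  linear_combination -hs

theorem norm_cpow_neg {x : ℝ} (hx : 0 < x) (w : ℂ) : ‖(x : ℂ) ^ (-w)‖ = x ^ (-w.re) := by
  rw [norm_cpow_eq_rpow_re_of_pos hx, neg_re]

theorem Dec.mul_cpow (h : Dec F a b) {x : ℝ} (hx : 0 < x) :
    Dec (fun w => F w * (x : ℂ) ^ (-w)) a b :=
  h.mul (K := x ^ (-a) + x ^ (-b)) fun w h1 h2 _ => by
    rw [norm_cpow_neg hx]
    rcases le_total 1 x with h | h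
    · exact (Real.rpow_le_rpow_of_exponent_le h (by linarith)).trans
        (le_add_of_nonneg_right (by positivity))
    · exact (Real.rpow_le_rpow_of_exponent_ge hx h (by linarith)).trans
        (le_add_of_nonneg_left (by positivity))

theorem diff_cpow {x : ℝ} (hx : 0 < x) : Differentiable ℂ fun w : ℂ => (x : ℂ) ^ (-w) :=
  differentiable_id.neg.const_cpow (Or.inl (ofReal_ne_zero.2 hx.ne'))

/-- from a vertical integral to the representation of its real part -/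
theorem melRep_of_line {f : ℝ → ℝ} (h : Dec F σ σ) (hc : Continuous fun t : ℝ => F (σ + t * I))
    (hf : ∀ x : ℝ, 0 < x →
      f x = (∫ t : ℝ, F (σ + t * I) * (x : ℂ) ^ (-((σ : ℂ) + t * I))).re) : Ab.MelRep f σ := by
  obtain ⟨C, hC0, hC⟩ := h.line hc
  set ρ : ℝ → ℂ := fun t => (2 * π : ℝ) * F (σ + (-(2 * π) * t : ℝ) * I) with hρ
  have cρ : Continuous ρ := continuous_const.mul (hc.comp (continuous_const.mul continuous_id))
  have bρ : ∀ t, ‖ρ t‖ ≤ 2 * π * C * (1 + t ^ 2)⁻¹ := fun t => by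
    rw [hρ, norm_mul, norm_real, Real.norm_of_nonneg (by positivity), mul_assoc (2 * π)]
    refine mul_le_mul_of_nonneg_left ((hC _).trans ?_) (by positivity)
    refine mul_le_mul_of_nonneg_left (inv_anti₀ (by positivity) ?_) hC0.le
    have h1 : 1 ≤ (2 * π) ^ 2 := one_le_pow₀ (by linarith [Real.pi_gt_three])
    rw [mul_pow, neg_sq]
    nlinarith [sq_nonneg t]
  refine ⟨fun t => (ρ t + conj (ρ (-t))) / 2, 2 * π * C, by positivity, by fun_prop,
    fun t => ?_, fun x hx => ?_⟩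
  · have h1 := bρ t
    have h2 := bρ (-t)
    rw [neg_sq] at h2
    rw [norm_div, Complex.norm_ofNat]
    have := norm_add_le (ρ t) (conj (ρ (-t)))
    rw [norm_conj] at this
    linarith
  · have i1 : ∀ {ρ : ℝ → ℂ}, Continuous ρ → (∀ t, ‖ρ t‖ ≤ 2 * π * C * (1 + t ^ 2)⁻¹) →
        Integrable fun t : ℝ => ρ t * (x : ℂ) ^ (-(σ : ℂ) + 2 * π * t * I) := fun hρ hb => by
      refine ((integrable_inv_one_add_sq.const_mul (2 * π * C)).mul_const (x ^ (-σ))).mono'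
        (hρ.mul (Continuous.const_cpow (by fun_prop)
          (Or.inl (ofReal_ne_zero.2 hx.ne')))).aestronglyMeasurable (ae_of_all _ fun t => ?_)
      rw [norm_mul, norm_cpow_eq_rpow_re_of_pos hx]
      exact mul_le_mul (hb t) (le_of_eq (by simp)) (by positivity) (by positivity)
    have e1 : ∫ t : ℝ, F (σ + t * I) * (x : ℂ) ^ (-((σ : ℂ) + t * I)) =
        ∫ t : ℝ, ρ t * (x : ℂ) ^ (-(σ : ℂ) + 2 * π * t * I) := by
      have := Measure.integral_comp_mul_left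
        (fun t : ℝ => F (σ + t * I) * (x : ℂ) ^ (-((σ : ℂ) + t * I))) (-(2 * π))
      rw [abs_inv, abs_neg, abs_of_pos Real.two_pi_pos, eq_comm,
        inv_smul_eq_iff₀ Real.two_pi_pos.ne'] at this
      rw [this, ← integral_smul]
      refine integral_congr_ae (ae_of_all _ fun t => ?_)
      simp only [hρ, real_smul, mul_assoc]
      congr 3
      push_cast
      ring
    have e2 : conj (∫ t : ℝ, ρ t * (x : ℂ) ^ (-(σ : ℂ) + 2 * π * t * I)) =
        ∫ t : ℝ, conj (ρ (-t)) * (x : ℂ) ^ (-(σ : ℂ) + 2 * π * t * I) := by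
      rw [← integral_conj, ← integral_neg_eq_self]
      refine integral_congr_ae (ae_of_all _ fun t => ?_)
      have h2 := cpow_conj (x : ℂ) (-(σ : ℂ) + 2 * π * ((-t : ℝ) : ℂ) * I)
        (by rw [arg_ofReal_of_nonneg hx.le]; exact Real.pi_pos.ne)
      rw [conj_ofReal] at h2
      simp only [map_mul, ← h2]
      congr 2
      simp [map_ofNat]
    rw [hf x hx, e1, re_eq_add_conj, e2, ← integral_add (i1 cρ bρ) (i1 (by fun_prop) fun t => by
      simpa using bρ (-t)), ← integral_div]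
    exact integral_congr_ae (ae_of_all _ fun t => by ring)

end Vale.Agent.P016Z.Sc
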