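import Vale.Agent.P016Z.Sc.Rho
import Vale.Agent.P016Z.Sc.MelA

/-!
P016, block SC3: bounds for the Mellin transform `rho`.
-/

namespace Vale.Agent.P016Z.Sc

open MeasureTheory Filter Topology Set Complex
open scoped Real

variable {c c' c3 a : ℝ} {r : ℕ} {S : Type} [Fintype S] {q : S → ℝ}

theorem norm_q_le {p s : ℝ} (hp : 1 < p) {w : ℂ} (hw : s ≤ w.re) :
    ‖(p : ℂ) ^ (-w)‖ ≤ p ^ (-s) := by
  rw [norm_cpow_neg (by linarith)]
  exact Real.rpow_le_rpow_of_exponent_le hp.le (by linarith)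

theorem norm_one_sub_ge {p s : ℝ} (hp : 1 < p) {w : ℂ} (hw : s ≤ w.re) :
    1 - p ^ (-s) ≤ ‖1 - (p : ℂ) ^ (-w)‖ := by
  have := norm_sub_norm_le (1 : ℂ) ((p : ℂ) ^ (-w))
  rw [norm_one] at this
  linarith [norm_q_le hp hw]

theorem one_sub_pos {p s : ℝ} (hp : 1 < p) (hs : 0 < s) : 0 < 1 - p ^ (-s) :=
  sub_pos.2 (Real.rpow_lt_one_of_one_lt_of_neg hp (by linarith))

theorem one_sub_ne {p : ℝ} (hp : 1 < p) {w : ℂ} (hw : 0 < w.re) : 1 - (p : ℂ) ^ (-w) ≠ 0 :=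
  norm_pos_iff.1 ((one_sub_pos hp hw).trans_le (norm_one_sub_ge hp le_rfl))

theorem rho_diff (hc3 : 0 < c3) (hq : ∀ i, 1 < q i) {w : ℂ} (hw : 0 < w.re) :
    DifferentiableAt ℂ (rho c c3 a r q) w := by
  unfold rho
  refine ((((differentiableAt_id.const_cpow (Or.inl (ofReal_ne_zero.2 hc3.ne'))).const_mul _).mul
    ((differentiableAt_Gamma w fun m e => ?_).pow r)).mul (DifferentiableAt.fun_finsetProd
      fun i _ => ?_)).mul (by fun_prop)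
  · rw [e] at hw
    simp only [neg_re, natCast_re] at hw
    linarith [(Nat.cast_nonneg m : (0 : ℝ) ≤ m)]
  · exact ((diff_cpow (by linarith [hq i]) w).const_sub 1).inv (one_sub_ne (hq i) hw)

theorem rho_ne (hc : c ≠ 0) (hc3 : 0 < c3) (hq : ∀ i, 1 < q i) {w : ℂ} (hw : 0 < w.re) :
    rho c c3 a r q w ≠ 0 :=
  mul_ne_zero (mul_ne_zero (mul_ne_zero (mul_ne_zero (ofReal_ne_zero.2 hc)
    (cpow_ne_zero_iff.2 (Or.inl (ofReal_ne_zero.2 hc3.ne'))))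
    (pow_ne_zero _ (Gamma_ne_zero_of_re_pos hw)))
    (Finset.prod_ne_zero_iff.2 fun i _ => inv_ne_zero (one_sub_ne (hq i) hw))) (exp_ne_zero _)

theorem re_gauss (a : ℝ) (w : ℂ) :
    ((a : ℂ) * (w - 1 / 2) ^ 2).re = a * (w.re - 1 / 2) ^ 2 - a * w.im ^ 2 := by
  simp [sq]; ring

theorem rpow_le_ends {x s b t : ℝ} (hx : 0 < x) (h1 : s ≤ t) (h2 : t ≤ b) :
    x ^ t ≤ x ^ s + x ^ b := by
  rcases le_total 1 x with h | h
  · exact (Real.rpow_le_rpow_of_exponent_le h h2).trans (le_add_of_nonneg_left (by positivity))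
  · exact (Real.rpow_le_rpow_of_exponent_ge hx h h1).trans (le_add_of_nonneg_right (by positivity))

theorem rho_bound (hc3 : 0 < c3) (hq : ∀ i, 1 < q i) (ha : 0 ≤ a) {s : ℝ} (hs : 0 < s) (b : ℝ) :
    ∃ C : ℝ, 0 ≤ C ∧ ∀ w : ℂ, s ≤ w.re → w.re ≤ b →
      ‖rho c c3 a r q w‖ ≤ C * Real.exp (-(a * w.im ^ 2)) := by
  obtain ⟨C, hC0, hC⟩ := P026Z.Vor.exists_Gamma_bound (a := s) (b := b) hs
  have p : ∀ i, 0 ≤ (1 - q i ^ (-s))⁻¹ := fun i => (inv_pos.2 (one_sub_pos (hq i) hs)).le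
  have p1 : 0 ≤ ∏ i, (1 - q i ^ (-s))⁻¹ := Finset.prod_nonneg fun i _ => p i
  refine ⟨|c| * (c3 ^ s + c3 ^ b) * C ^ r * (∏ i, (1 - q i ^ (-s))⁻¹) *
    Real.exp (a * (|b| + 1) ^ 2), by positivity, fun w h1 h2 => ?_⟩
  rw [rho, norm_mul, norm_mul, norm_mul, norm_mul, norm_real, Real.norm_eq_abs, norm_pow,
    norm_prod, norm_cpow_eq_rpow_re_of_pos hc3, norm_exp, re_gauss, mul_assoc _ (Real.exp _),
    ← Real.exp_add]
  have h3 : (w.re - 1 / 2) ^ 2 ≤ (|b| + 1) ^ 2 :=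
    sq_le_sq' (by linarith [abs_nonneg b]) (by linarith [le_abs_self b])
  gcongr with i
  · exact rpow_le_ends hc3 h1 h2
  · exact hC w h1 h2
  · rw [norm_inv]
    exact inv_anti₀ (one_sub_pos (hq i) hs) (norm_one_sub_ge (hq i) h1)
  · nlinarith

theorem rho_inv_bound (hc3 : 0 < c3) (hq : ∀ i, 1 < q i) (ha : 0 ≤ a) :
    ∃ C : ℝ, ∀ w : ℂ, 0 ≤ w.re → w.re ≤ 3 → 1 ≤ |w.im| →
      ‖(rho c c3 a r q w)⁻¹‖ ≤ C * Real.exp (r * (π * |w.im|) + a * w.im ^ 2) := by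
  obtain ⟨C, hC0, hC⟩ := P026Z.Vor.exists_inv_Gamma_bound
  refine ⟨|c|⁻¹ * (c3 ^ (-3 : ℝ) + c3 ^ (0 : ℝ)) * C ^ r * ∏ _i : S, (2 : ℝ),
    fun w h1 h2 h3 => ?_⟩
  rw [rho, mul_inv, mul_inv, mul_inv, mul_inv, ← Finset.prod_inv_distrib, ← inv_pow,
    norm_mul, norm_mul, norm_mul, norm_mul, norm_inv, norm_real, Real.norm_eq_abs, norm_pow,
    norm_prod, ← cpow_neg, norm_cpow_neg hc3, ← exp_neg, norm_exp, neg_re, re_gauss, Real.exp_add,
    Real.exp_nat_mul]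
  have h4 : Real.exp (-(a * (w.re - 1 / 2) ^ 2 - a * w.im ^ 2)) ≤ Real.exp (a * w.im ^ 2) :=
    Real.exp_le_exp.2 (by nlinarith [mul_nonneg ha (sq_nonneg (w.re - 1 / 2))])
  have h5 : ∏ i, ‖(1 - (q i : ℂ) ^ (-w))⁻¹⁻¹‖ ≤ ∏ _i : S, (2 : ℝ) :=
    Finset.prod_le_prod (fun _ _ => norm_nonneg _) fun i _ => by
      have := norm_q_le (hq i) h1
      rw [neg_zero, Real.rpow_zero] at this
      rw [inv_inv]
      exact (norm_sub_le _ _).trans (by rw [norm_one]; linarith)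
  calc _ ≤ |c|⁻¹ * (c3 ^ (-3 : ℝ) + c3 ^ (0 : ℝ)) * (C * Real.exp (π * |w.im|)) ^ r *
        (∏ _i : S, (2 : ℝ)) * Real.exp (a * w.im ^ 2) := by
        gcongr
        · exact rpow_le_ends hc3 (by linarith) (by linarith)
        · exact hC w (by linarith) h2 h3
    _ = _ := by rw [mul_pow]; ring

theorem dec_rho (hc3 : 0 < c3) (hq : ∀ i, 1 < q i) (ha : 0 < a) {s : ℝ} (hs : 0 < s) (b : ℝ) :
    Dec (rho c c3 a r q) s b := by
  obtain ⟨C, -, hC⟩ := rho_bound (c := c) (r := r) hc3 hq ha.le hs b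
  exact Dec.of_gauss ha fun w h1 h2 _ => hC w h1 h2

theorem dec_ratio (hc3 : 0 < c3) (hq : ∀ i, 1 < q i) {s : ℝ} (hs : 0 < s) :
    Dec (fun w => rho c c3 1 r q w * (rho c' c3 (1 / 8) r q (2 * w))⁻¹) s 1 := by
  obtain ⟨C, hC0, hC⟩ := rho_bound (c := c) (r := r) hc3 hq zero_le_one hs 1
  obtain ⟨C', hC'⟩ := rho_inv_bound (c := c') (r := r) (a := 1 / 8) hc3 hq (by norm_num)
  refine Dec.of_gauss (δ := 1 / 4) (C := C * |C'| * Real.exp (4 * (r * π) ^ 2)) (by norm_num)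
    fun w h1 h2 h3 => ?_
  have e : |(2 * w).im| = 2 * |w.im| := by simp [abs_mul]
  have e' : (2 * w).im ^ 2 = 4 * |w.im| ^ 2 := by rw [← sq_abs, e]; ring
  have h4 := hC' (2 * w) (by simp; linarith) (by simp; linarith) (by rw [e]; linarith)
  rw [e, e'] at h4
  rw [norm_mul]
  refine (mul_le_mul (hC w h1 h2) (h4.trans (mul_le_mul_of_nonneg_right (le_abs_self C')
    (Real.exp_pos _).le)) (norm_nonneg _) (by positivity)).trans ?_
  rw [mul_mul_mul_comm, ← Real.exp_add, mul_assoc (C * |C'|), ← Real.exp_add, ← sq_abs w.im]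
  refine mul_le_mul_of_nonneg_left (Real.exp_le_exp.2 ?_) (by positivity)
  nlinarith [sq_nonneg (|w.im| / 2 - 2 * (r * π))]

/-- the field `Rad.mellin` from the explicit formula -/
theorem mellin_field {T : ℝ → ℝ} (hc3 : 0 < c3) (hq : ∀ i, 1 < q i) (ha : 0 < a)
    (h : InvMel T (rho c c3 a r q)) (σ : ℝ) (hσ : 0 < σ) : ∃ ρ : ℝ → ℂ, Continuous ρ ∧
      (∀ K : ℕ, ∃ C : ℝ, ∀ t : ℝ, ‖ρ t‖ * (1 + |t|) ^ K ≤ C) ∧
      ∀ x : ℝ, 0 < x → (T x : ℂ) = ∫ t : ℝ, ρ t * (x : ℂ) ^ (-((σ : ℂ) + t * I)) := by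
  refine ⟨fun t => 1 / (2 * (π : ℂ)) * rho c c3 a r q (σ + t * I), continuous_const.mul
    (cont_line fun w e => rho_diff hc3 hq (e ▸ hσ)), fun K => ?_, fun x hx => ?_⟩
  · obtain ⟨C, hC0, hC⟩ := rho_bound (c := c) (r := r) hc3 hq ha.le hσ σ
    refine ⟨‖1 / (2 * (π : ℂ))‖ * (C * Real.exp (K ^ 2 / (4 * a))), fun t => ?_⟩
    have h1 := hC (σ + t * I) (by simp) (by simp)
    have h2 : (1 + |t|) ^ K ≤ Real.exp (K * |t|) := by
      rw [Real.exp_nat_mul]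
      gcongr
      linarith [Real.add_one_le_exp |t|]
    rw [norm_mul, mul_assoc]
    refine mul_le_mul_of_nonneg_left ((mul_le_mul h1 h2 (by positivity) (by positivity)).trans ?_)
      (norm_nonneg _)
    rw [mul_assoc, ← Real.exp_add]
    refine mul_le_mul_of_nonneg_left (Real.exp_le_exp.2 ?_) hC0
    have e : ((σ : ℂ) + t * I).im = t := by simp
    rw [e, le_div_iff₀ (by positivity), ← sq_abs t]
    nlinarith [sq_nonneg (2 * a * |t| - K)]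
  · rw [h σ hσ x hx, ← integral_const_mul]
    simp only [mul_assoc]

end Vale.Agent.P016Z.Sc
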