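import Vale.Agent.P016Z.Sc.MelB
import Vale.Agent.P016Z.Sc.RhoBd

/-!
P016, block SC3: the Mellin representations of `thq` from Poisson summation for a second weight.
-/

namespace Vale.Agent.P016Z.Sc

open MeasureTheory Filter Topology Set Complex
open scoped Real

theorem melRep_of {f : ℝ → ℝ} {F : ℂ → ℂ} {σ : ℝ} (h : Dec F σ σ)
    (hc : Continuous fun t : ℝ => F (σ + t * I))
    (hf : ∀ x : ℝ, 0 < x → f x = (1 / (2 * (π : ℂ)) *
      ∫ t : ℝ, F (σ + t * I) * (x : ℂ) ^ (-((σ : ℂ) + t * I))).re) : Ab.MelRep f σ :=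
  melRep_of_line (F := fun w => F w * (1 / (2 * (π : ℂ)))) (h.mul fun _ _ _ _ => le_rfl)
    (hc.mul continuous_const) fun x hx => by
      rw [hf x hx, ← integral_const_mul]
      congr 2
      ext t
      ring

theorem Dec.add {F G : ℂ → ℂ} {a b : ℝ} (h : Dec F a b) (h' : Dec G a b) :
    Dec (fun w => F w + G w) a b :=
  (h.sub (h'.mul (G := fun _ => -1) fun _ _ _ _ => le_rfl)).congr fun w _ _ _ => by ring

/-- moving the line from `1` to `σ < 1/2` -/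
theorem cross {κ L : ℂ → ℂ} (dκ : ∀ w : ℂ, 0 < w.re → DifferentiableAt ℂ κ w)
    (Dκ : ∀ s : ℝ, 0 < s → Dec κ s 1) (dL : Differentiable ℂ L) {K : ℝ}
    (hK : ∀ w : ℂ, 0 ≤ w.re → w.re ≤ 2 → ‖L w‖ ≤ K) {f : ℝ → ℝ}
    (hf : LineRep (fun x => f x)
      (fun w => κ w * (L (2 * w) - 1 / (2 * w) - 1 / (1 - 2 * w))) 1) :
    ∃ c₀ : ℝ, ∀ σ : ℝ, 0 < σ → σ < 1 / 2 → Ab.MelRep (fun s => f s - c₀ / Real.sqrt s) σ := by
  obtain ⟨k, hk⟩ := shift_pole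
  set Φ : ℂ → ℂ := fun w => κ w * (L (2 * w) - (2 * w)⁻¹) with hΦ
  set Ψ : ℂ → ℂ := fun w => κ w * (1 / 2) * (w - 1 / 2)⁻¹ with hΨ
  have dΦ : ∀ w : ℂ, 0 < w.re → DifferentiableAt ℂ Φ w := fun w hw =>
    (dκ w hw).mul ((dL.comp (differentiable_id.const_mul 2) w).sub
      ((differentiableAt_id.const_mul 2).inv (mul_ne_zero two_ne_zero fun e => by
        rw [show w = 0 from e] at hw; simp at hw)))
  have dΨ : ∀ w : ℂ, 0 < w.re → w.re ≠ 1 / 2 → DifferentiableAt ℂ Ψ w := fun w hw h =>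
    ((dκ w hw).mul_const _).mul ((differentiableAt_id.sub_const _).inv (ne_half h))
  have DΦ : ∀ s : ℝ, 0 < s → Dec Φ s 1 := fun s hs => (Dκ s hs).mul (K := K + 1)
    fun w h1 h2 h3 => (norm_sub_le _ _).trans (add_le_add
      (hK _ (by simp; linarith) (by simp; linarith)) (by
        rw [norm_inv, norm_mul, Complex.norm_ofNat]
        exact inv_le_one_of_one_le₀ (by linarith [abs_im_le_norm w])))
  have DΨ : ∀ s : ℝ, 0 < s → Dec Ψ s 1 := fun s hs =>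
    ((Dκ s hs).mul fun _ _ _ _ => le_rfl).mul fun _ _ _ h => norm_inv_le h
  have cΦ : ∀ s : ℝ, 0 < s → Continuous fun t : ℝ => Φ (s + t * I) := fun s hs =>
    cont_line fun w e => dΦ w (e ▸ hs)
  have cΨ : ∀ s : ℝ, 0 < s → s ≠ 1 / 2 → Continuous fun t : ℝ => Ψ (s + t * I) := fun s hs h =>
    cont_line fun w e => dΨ w (e ▸ hs) (e ▸ h)
  have sp : ∀ s : ℝ, 0 < s → s ≠ 1 / 2 → s ≤ 1 → ∀ x : ℝ, 0 < x →
      ∫ t : ℝ, (Φ (s + t * I) + Ψ (s + t * I)) * (x : ℂ) ^ (-((s : ℂ) + t * I)) =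
        (∫ t : ℝ, Φ (s + t * I) * (x : ℂ) ^ (-((s : ℂ) + t * I))) +
          ∫ t : ℝ, Ψ (s + t * I) * (x : ℂ) ^ (-((s : ℂ) + t * I)) := fun s hs h h1 x hx => by
    simp only [add_mul]
    exact integral_add (int_line (((DΦ s hs).mono le_rfl h1).int (cΦ s hs)) hx)
      (int_line (((DΨ s hs).mono le_rfl h1).int (cΨ s hs h)) hx)
  refine ⟨(1 / (2 * (π : ℂ)) * (k * (κ (1 / 2) * (1 / 2)))).re, fun σ h0 h1 =>
    melRep_of (F := fun w => Φ w + Ψ w)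
      (((DΦ σ h0).add (DΨ σ h0)).mono le_rfl (by linarith))
      ((cΦ σ h0).add (cΨ σ h0 h1.ne)) fun x hx => ?_⟩
  have e1 : (f x : ℂ) = 1 / (2 * (π : ℂ)) * ∫ t : ℝ, (Φ ((1 : ℝ) + t * I) + Ψ ((1 : ℝ) + t * I)) *
      (x : ℂ) ^ (-(((1 : ℝ) : ℂ) + t * I)) := by
    refine (hf x hx).trans ?_
    congr 2
    ext t
    have : (1 - 2 * (((1 : ℝ) : ℂ) + t * I)) = -2 * (((1 : ℝ) : ℂ) + t * I - 1 / 2) := by ring
    simp only [hΦ, hΨ, this, one_div, mul_inv]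
    ring
  have e2 := Dec.shift ((DΦ σ h0).mul_cpow hx) (by linarith)
    fun w h _ => (dΦ w (by linarith)).mul (diff_cpow hx w)
  have e3 := hk (fun w => κ w * (1 / 2) * (x : ℂ) ^ (-w))
    (fun w hw => (((dκ w hw).mul_const _).mul (diff_cpow hx w)).differentiableWithinAt)
    (((Dκ _ (by norm_num)).mul fun _ _ _ _ => le_rfl).mul_cpow hx)
  have e4 : ∀ s : ℝ, 0 < s → s ≤ σ → s ≤ 1 / 4 →
      ∫ t : ℝ, Ψ (σ + t * I) * (x : ℂ) ^ (-((σ : ℂ) + t * I)) =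
      ∫ t : ℝ, Ψ ((1 / 4 : ℝ) + t * I) * (x : ℂ) ^ (-(((1 / 4 : ℝ) : ℂ) + t * I)) := by
    intro s hs h2 h3
    rw [← Dec.shift (((DΨ s hs).mono le_rfl (by linarith)).mul_cpow hx) h2
      fun w h h' => (dΨ w (by linarith) (by linarith)).mul (diff_cpow hx w),
      ← Dec.shift (((DΨ s hs).mono le_rfl (by norm_num)).mul_cpow hx) h3
      fun w h h' => (dΨ w (by linarith) (by linarith)).mul (diff_cpow hx w)]
  have e5 : (x : ℂ) ^ (-(1 / 2 : ℂ)) = ((Real.sqrt x)⁻¹ : ℝ) := by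
    rw [Real.sqrt_eq_rpow, ← Real.rpow_neg hx.le, ofReal_cpow hx.le]
    push_cast
    rfl
  have e6 : ∀ s : ℝ, ∫ t : ℝ, κ (s + t * I) * (1 / 2) * (x : ℂ) ^ (-((s : ℂ) + t * I)) *
      ((s : ℂ) + t * I - 1 / 2)⁻¹ = ∫ t : ℝ, Ψ (s + t * I) * (x : ℂ) ^ (-((s : ℂ) + t * I)) :=
    fun s => integral_congr_ae (ae_of_all _ fun t => mul_right_comm _ _ _)
  simp only [e6, e5] at e3
  rw [sp 1 one_pos (by norm_num) le_rfl x hx, ← e2, e3] at e1
  rw [sp σ h0 h1.ne (by linarith) x hx, e4 (min σ (1 / 4)) (by positivity) (min_le_left _ _)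
    (min_le_right _ _), div_eq_mul_inv _ (Real.sqrt x), ← re_mul_ofReal, ← ofReal_re (f x), e1,
    ← sub_re]
  congr 1
  ring

variable {M : Type} [CommMonoidWithZero M] [Ab.Ar M]

/-- norms of the nonzero elements -/
def nz (u : {u : M // u ≠ 0}) : ℝ := Ab.N u.1

theorem nz_pos (u : {u : M // u ≠ 0}) : 0 < nz u := by
  unfold nz
  exact_mod_cast Ab.Ar.N_pos u.1 u.2

theorem nz_sum {σ : ℝ} (h : 1 < σ) : Summable fun u : {u : M // u ≠ 0} => nz u ^ (-σ) :=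
  (Ab.Ar.summable_N σ h).subtype fun u : M => u ≠ 0

theorem nz_sum2 {σ : ℝ} (h : 1 / 2 < σ) :
    Summable fun u : {u : M // u ≠ 0} => (nz u ^ 2) ^ (-σ) :=
  (nz_sum (σ := 2 * σ) (by linarith)).congr fun u => by
    rw [← Real.rpow_two, ← Real.rpow_mul (nz_pos u).le, mul_neg]

theorem dir_sq (w : ℂ) : dir (fun u : {u : M // u ≠ 0} => nz u ^ 2) w = dir (nz (M := M)) (2 * w) :=
  tsum_congr fun u => by
    simp only
    rw [sq, ofReal_mul, mul_cpow_ofReal_nonneg (nz_pos u).le (nz_pos u).le,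
      ← cpow_add _ _ (ofReal_ne_zero.2 (nz_pos u).ne')]
    congr 1
    ring

theorem thq_eq (R : Ab.Rad M) (s : ℝ) :
    (@Ab.thq M _ _ R s : ℂ) = ∑' u : {u : M // u ≠ 0}, (R.Th (s * nz u ^ 2) : ℂ) := by
  rw [Ab.thq, ofReal_tsum]
  refine Eq.trans (tsum_congr fun u => ?_)
    (tsum_subtype {u : M | u ≠ 0} fun u => (R.Th (s * (Ab.N u : ℝ) ^ 2) : ℂ)).symm
  by_cases h : u = 0 <;> simp [h]

theorem gr_eq (R : Ab.Rad M) (A : ℝ)
    (h : Summable fun u : {u : M // u ≠ 0} => (R.Th (A⁻¹ * nz u) : ℂ)) :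
    ((∑' x : M, @Ab.gr M _ _ R A x : ℝ) : ℂ) =
      1 + ∑' u : {u : M // u ≠ 0}, (R.Th (A⁻¹ * nz u) : ℂ) := by
  classical
  have h1 := (hasSum_subtype_iff_indicator (s := {u : M | u ≠ 0})
    (f := fun u => (R.Th (A⁻¹ * (Ab.N u : ℝ)) : ℂ))).1 h.hasSum
  rw [ofReal_tsum, ← ((hasSum_ite_eq (0 : M) (1 : ℂ)).add h1).tsum_eq]
  refine tsum_congr fun u => ?_
  by_cases h : u = 0 <;> simp [Ab.gr, h, div_eq_inv_mul]

theorem thMellin_abs (R R' : Ab.Rad M) (hP : @Ab.Pois1 M _ _ R') {ρ ρ' κ : ℂ → ℂ}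
    (hR : InvMel R.Th ρ) (hR' : InvMel R'.Th ρ')
    (dρ : ∀ w : ℂ, 0 < w.re → DifferentiableAt ℂ ρ w) (Dρ : ∀ s : ℝ, 0 < s → Dec ρ s s)
    (dρ' : ∀ w : ℂ, 0 < w.re → DifferentiableAt ℂ ρ' w) (Dρ' : ∀ s : ℝ, 0 < s → Dec ρ' s s)
    (dκ : ∀ w : ℂ, 0 < w.re → DifferentiableAt ℂ κ w) (Dκ : ∀ s : ℝ, 0 < s → Dec κ s 1)
    (e : ∀ w : ℂ, 0 < w.re → ρ w = κ w * ρ' (2 * w)) : @Ab.ThMellin M _ _ R := by
  have cρ : ∀ s : ℝ, 0 < s → Continuous fun t : ℝ => ρ (s + t * I) := fun s hs =>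
    cont_line fun w e => dρ w (e ▸ hs)
  have cρ' : ∀ s : ℝ, 0 < s → Continuous fun t : ℝ => ρ' (s + t * I) := fun s hs =>
    cont_line fun w e => dρ' w (e ▸ hs)
  have r1 : ∀ s : ℝ, 1 / 2 < s → LineRep (fun x => (@Ab.thq M _ _ R x : ℂ))
      (fun w => ρ w * dir (fun u : {u : M // u ≠ 0} => nz u ^ 2) w) s := fun s hs x hx =>
    (thq_eq R x).trans (LineRep.tsum (f := fun x => R.Th x) (hR s (by linarith))
      ((Dρ s (by linarith)).int (cρ s (by linarith))) (fun u => pow_pos (nz_pos u) 2)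
      (nz_sum2 hs) x hx)
  refine ⟨fun s hs => melRep_of ((Dρ s (by linarith)).mul fun w h1 h2 _ =>
    dir_bound (fun u => pow_pos (nz_pos u) 2) (nz_sum2 hs) (le_antisymm h2 h1))
    ((cρ s (by linarith)).mul (dir_cont (fun u => pow_pos (nz_pos u) 2) (nz_sum2 hs)))
    fun x hx => by rw [← r1 s hs x hx, ofReal_re], ?_⟩
  have sm : ∀ x : ℝ, 0 < x → Summable fun u : {u : M // u ≠ 0} => (R'.Th (x * nz u) : ℂ) :=
    fun x hx => LineRep.summable (f := fun x => R'.Th x) (hR' 2 two_pos) nz_pos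
      (nz_sum one_lt_two) hx
  obtain ⟨L, dL, bL, hL⟩ := cont_of_fe
    (Θ := fun x => ∑' u : {u : M // u ≠ 0}, (R'.Th (x * nz u) : ℂ))
    (G := fun w => ρ' w * dir (nz (M := M)) w)
    (fun s hs => LineRep.tsum (f := fun x => R'.Th x) (hR' s (by linarith))
      ((Dρ' s (by linarith)).int (cρ' s (by linarith))) nz_pos (nz_sum hs))
    (fun s hs => ((Dρ' s (by linarith)).mul fun w h1 h2 _ =>
      dir_bound nz_pos (nz_sum hs) (le_antisymm h2 h1)).int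
      ((cρ' s (by linarith)).mul (dir_cont nz_pos (nz_sum hs))))
    ((cρ' 2 two_pos).mul (dir_cont nz_pos (nz_sum one_lt_two))) fun x hx => by
      have h1 := gr_eq R' x⁻¹ (sm _ (by positivity))
      rw [inv_inv] at h1
      rw [one_div, ← gr_eq R' x (sm _ (inv_pos.2 hx)), hP x hx, ofReal_mul, h1]
  obtain ⟨K, hK⟩ := bL 0 2
  refine cross dκ Dκ dL hK fun x hx => (r1 1 (by norm_num) x hx).trans ?_
  congr 2
  ext t
  simp only
  rw [← hL _ (by simp), dir_sq, e _ (by simp), mul_assoc (κ _)]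

/-- **SC3.** The Mellin representations of `thq` for the weight of width `1`, from Poisson
summation for the weight of width `1/8`. -/
theorem thMellin_of (R R' : Ab.Rad M) (hP : @Ab.Pois1 M _ _ R') {c c' c3 : ℝ} (hc' : 0 < c')
    (hc3 : 0 < c3) {r : ℕ} {S : Type} [Fintype S] {q : S → ℝ} (hq : ∀ i, 1 < q i)
    (hR : InvMel R.Th (rho c c3 1 r q)) (hR' : InvMel R'.Th (rho c' c3 (1 / 8) r q)) :
    @Ab.ThMellin M _ _ R := by
  have h2 : ∀ w : ℂ, 0 < w.re → 0 < (2 * w).re := fun w hw => by simpa using hw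
  exact thMellin_abs R R' hP hR hR' (fun _ => rho_diff hc3 hq)
    (fun s hs => dec_rho hc3 hq one_pos hs s) (fun _ => rho_diff hc3 hq)
    (fun s hs => dec_rho hc3 hq (by norm_num) hs s)
    (κ := fun w => rho c c3 1 r q w * (rho c' c3 (1 / 8) r q (2 * w))⁻¹)
    (fun w hw => (rho_diff hc3 hq hw).mul (((rho_diff hc3 hq (h2 w hw)).comp w
      (differentiableAt_id.const_mul 2)).inv (rho_ne hc'.ne' hc3 hq (h2 w hw))))
    (fun _ => dec_ratio hc3 hq)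
    fun w hw => (inv_mul_cancel_right₀ (rho_ne hc'.ne' hc3 hq (h2 w hw)) _).symm

end Vale.Agent.P016Z.Sc
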