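import Vale.Agent.P016Z.Sc.Theta
import Vale.Agent.P016Z.Sc.Mel
import Vale.Agent.P016Z.Sc.ThMel
import Vale.Agent.P016Z.Base.Mon

/-!
P016, block SC: the radial weight on `M K` and radial Poisson summation.
-/

open NumberField MeasureTheory
open scoped ENNReal Real

set_option linter.unusedSectionVars false

namespace Vale.Agent.P016Z.Sc

open TH Pois

section model

variable {S ι : Type} [Fintype S] [Fintype ι] {q : S → ℝ} {κ : ℝ → ℝ≥0∞}

theorem TG_le {B σ : ℝ} (hB : 0 ≤ B) (h : ∀ s, κ s ≤ ENNReal.ofReal (B * Real.exp (σ * s)))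
    (s : ℝ) : TG ι q κ s ≤ ENNReal.ofReal (B * Real.exp (-(σ * s))) *
      ∫⁻ g, eG g * ENNReal.ofReal (Real.exp (σ * ellG q g)) ∂muG S ι := by
  rw [← lintegral_const_mul' _ _ ENNReal.ofReal_ne_top]
  refine lintegral_mono fun g => ?_
  simp only
  rw [mul_left_comm, ← ENNReal.ofReal_mul (by positivity), mul_assoc, ← Real.exp_add]
  refine mul_le_mul_right ((h _).trans (le_of_eq ?_)) _
  congr 3
  ring

theorem TG_anti [Nonempty ι] {s : ℝ} (hs : s ≤ 0) : TG ι q κ 0 ≤ TG ι q κ s := by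
  have h : (Fintype.card ι : ℝ) ≠ 0 := by exact_mod_cast Fintype.card_ne_zero
  let a : GG S ι := (0, fun _ => s / Fintype.card ι)
  have ha : ellG q a = s := by
    simp only [a, ellG_apply, Finset.sum_const, Finset.card_univ, nsmul_eq_mul, Pi.zero_apply,
      Int.cast_zero, zero_mul, mul_zero, sub_zero]
    field_simp
  rw [TG, TG, ← lintegral_add_right_eq_self (fun g => eG g * κ (ellG q g - s)) a]
  refine lintegral_mono fun g => ?_
  simp only [map_add, ha, add_sub_cancel_right, sub_zero]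
  refine mul_le_mul_left ?_ _
  by_cases h0 : 0 ≤ g.1
  · rw [eG, eG, if_pos h0, if_pos (show 0 ≤ (g + a).1 by simpa [a] using h0)]
    have : s / Fintype.card ι ≤ 0 := div_nonpos_of_nonpos_of_nonneg hs (Nat.cast_nonneg _)
    simp only [a, Prod.snd_add, Pi.add_apply]
    gcongr
    linarith
  · rw [eG, if_neg h0]
    exact zero_le

theorem TG_ne_zero (a s : ℝ) : TG ι q (kap a) s ≠ 0 := by
  have hm : Measurable fun g : GG S ι => eG g * kap a (ellG q g - s) :=
    measurable_eG.mul ((measurable_kap a).comp ((measurable_ellG q).sub_const s))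
  refine ((lintegral_pos_iff_support hm).2 ?_).ne'
  refine lt_of_lt_of_le ?_ (measure_mono (s := (Set.univ.pi fun _ : S => ({0} : Set ℤ)) ×ˢ Set.univ)
    fun g hg => mul_ne_zero ?_ ?_)
  · rw [muG, Measure.prod_prod, Measure.pi_pi]
    simp only [Measure.count_singleton, Finset.prod_const_one, one_mul]
    exact isOpen_univ.measure_pos _ Set.univ_nonempty
  · rw [eG, if_pos (show 0 ≤ g.1 from fun i => (hg.1 i trivial).ge)]
    exact (ENNReal.ofReal_pos.2 (Real.exp_pos _)).ne'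
  · exact (ENNReal.ofReal_pos.2 (Real.exp_pos _)).ne'

end model

variable {K : Type} [Field K] [NumberField K] [Dat K]

instance : Countable K := Finsupp.Countable.of_moduleFinite (R := ℚ) (M := K)

instance : Countable Kˣ := Units.val_injective.countable

theorem ofReal_WK {x : K} (hx : x ≠ 0) (g : GK K) :
    ENNReal.ofReal (WK x g) = eG (g + posK x) := by
  rw [← mul_one x, WK_mul hx, mul_one, WK, eG, mul_one]
  have h1 := mem_Si_iff (cv_ne (g + posK x).1)
  rw [vl_cv] at h1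
  by_cases h : 0 ≤ (g + posK x).1
  · rw [if_pos h, if_pos (h1.2 h)]
    simp [gs]
  · rw [if_neg h, if_neg (h1.not.2 h), ENNReal.ofReal_zero]

/-- an element of `U` as a unit of `R` -/
def uR (u : U K) : (R K)ˣ := ofK (u : Kˣ) (Subgroup.mem_inf.1 u.2).1

variable (K) in
/-- the geometric data of the field -/
noncomputable def geo : Geo (GK K) (U K) (R K) (M K) where
  φ u := posK ((u : Kˣ) : K)
  hom u v := posK_mul (Units.ne_zero _) (Units.ne_zero _)
  l := lK
  l_meas := measurable_ellG _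
  l_surj := ellG_surj _
  l_phi u := by
    have h := lK_pos (uR u).ne_zero
    rwa [Nr, Nq_eq_one_iff.2 (uR u).isUnit, Nat.cast_one, Real.log_one] at h
  e := eG
  e_meas := measurable_eG
  pos x := posK (x : K)
  p := mkM
  nrm m := Ab.N m
  p_surj := mkM_surj
  p_zero _ := mkM_eq_zero
  fib x hx := by
    refine ⟨Equiv.ofBijective (fun u => ⟨(uR u : R K) * x, (mkM_eq.2 ⟨u, u.2, rfl⟩).symm⟩)
      ⟨fun u v h => ?_, fun y => ?_⟩, fun u => ?_⟩
    · have h1 : ((u : Kˣ) : K) * x = ((v : Kˣ) : K) * x :=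
        congrArg (fun t : mkM ⁻¹' {mkM x} => ((t : R K) : K)) h
      exact Subtype.ext (Units.ext (mul_right_cancel₀ (coe_ne_zero hx) h1))
    · obtain ⟨η, hη, h⟩ := mkM_eq.1 (show mkM x = mkM y from y.2.symm)
      exact ⟨⟨η, hη⟩, Subtype.ext (Subtype.ext h.symm)⟩
    · exact (posK_mul (Units.ne_zero _) (coe_ne_zero hx)).trans (add_comm _ _)
  l_pos x hx := by rw [N_mkM]; exact lK_pos hx

theorem geo_E (x : R K) (g : GK K) : (geo K).E 1 x g = ENNReal.ofReal (WK (x : K) g) := by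
  unfold Geo.E
  split_ifs with h
  · rw [h, ZeroMemClass.coe_zero, WK_zero, ENNReal.ofReal_one]
  · exact (ofReal_WK (coe_ne_zero h) g).symm

theorem geo_th (f : R K → ℂ) (g : GK K) : (geo K).th f g = thK f g :=
  tsum_congr fun x => by rw [geo_E, ENNReal.toReal_ofReal (WK_nonneg _ _)]

theorem tsum_E (g : GK K) :
    ∑' x, (geo K).E 1 x g = ENNReal.ofReal (∑' x : R K, WK (x : K) g) := by
  simp only [geo_E]
  exact (ENNReal.ofReal_tsum_of_nonneg (fun _ => WK_nonneg _ _) (summable_WK g)).symm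

variable (K) in
theorem exists_puK : ∃ ψ, IsPU (geo K).φ ψ := by
  refine exists_pu (geo K).hom measurable_eG (fun g h => ?_) fun g => ?_
  · obtain ⟨k, hk⟩ := exists_pow_mul_mem_Si (cv g.1)
    have hQ : Units.mk0 (Q K : K) (QK_ne K) ∈ Ru K := ⟨natCast_mem _ _, inv_Q_mem_R⟩
    have h1 := ENNReal.tsum_eq_zero.1 h ⟨_, pow_six_mem_U (pow_mem hQ k)⟩
    change eG (g + posK _) = 0 at h1
    rw [← ofReal_WK (Units.ne_zero _), WK, if_pos, ENNReal.ofReal_eq_zero] at h1
    · exact (gs_pos _ _).not_ge h1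
    · have h2 := pow_mul_mem_Si_mono hk (l := k * 6) (by omega)
      rwa [pow_mul, mul_comm] at h2
  · have hi : Function.Injective fun u : U K => (uR u : R K) := fun u v h =>
      Subtype.ext (Units.ext (congrArg Subtype.val h))
    refine ne_top_of_le_ne_top ENNReal.ofReal_ne_top (le_of_le_of_eq (le_of_eq_of_le
      (tsum_congr fun u => ?_)
      (ENNReal.tsum_comp_le_tsum_of_injective hi fun x => (geo K).E 1 x g)) (tsum_E g))
    rw [geo_E, ofReal_WK (coe_ne_zero (Units.ne_zero _))]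
    rfl

variable (K) in
/-- a partition of unity -/
noncomputable def puK : GK K → ℝ≥0∞ := (exists_puK K).choose

theorem puK_spec : IsPU (geo K).φ (puK K) := (exists_puK K).choose_spec

variable (K) in
/-- the square root of the discriminant -/
noncomputable def CK : ℝ := (exists_FE' K).choose

theorem CK_pos : 0 < CK K := (exists_FE' K).choose_spec.1

theorem lK_dK : lK (dK K) = -(2 * Real.log (CK K)) := (exists_FE' K).choose_spec.2.1

theorem thK_FE {n : R K} (hn : n ≠ 0) {f : R K → ℂ} (hf : PerM n f) (g : GK K) :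
    thK f g = (((CK K * Nr n)⁻¹ * Real.exp (-lK g) : ℝ) : ℂ) *
      thK (fhat n f) (dK K - posK (n : K) - g) := (exists_FE' K).choose_spec.2.2 n hn f hf g

theorem fhat_one : fhat (1 : R K) (fun _ => 1) = fun _ => 1 := funext fun y => by
  rw [fhat, rsum_one (PerM.mul (h := fun _ => 1) (fun _ _ _ => rfl) (E_per one_ne_zero y)),
    zero_mul, E_zero, mul_one]

theorem sum_bw_ne_top {c : ℝ≥0∞} (hc : c ≠ ∞) {κ : ℝ → ℝ≥0∞} {B : ℝ} (hB : 0 ≤ B)
    (h : ∀ s, κ s ≤ ENNReal.ofReal (B * Real.exp (2 * s))) (α : ℝ) :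
    ∑' m, (geo K).bw (muG _ _) c κ α m ≠ ∞ := by
  classical
  have h1 := (Ab.summable_N_rpow (M := M K) one_lt_two).mul_left (B * Real.exp (2 * α))
  have h2 := ENNReal.ofReal_tsum_of_nonneg (fun m => by positivity) h1
  refine ne_top_of_le_ne_top (ENNReal.add_ne_top.2 ⟨hc, ENNReal.mul_ne_top
    (h2 ▸ ENNReal.ofReal_ne_top) (mom_ne_top (ι := io K) (one_lt_qS (K := K)) two_pos)⟩) ?_
  have h3 : c = ∑' m : M K, if m = 0 then c else 0 := (tsum_ite_eq (0 : M K) fun _ => c).symm
  rw [← ENNReal.tsum_mul_right]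
  refine le_of_le_of_eq ?_ (ENNReal.tsum_add.trans (congrArg (· + _) h3.symm))
  refine ENNReal.tsum_le_tsum fun m => ?_
  unfold Geo.bw
  split_ifs with hm
  · exact le_self_add
  · rw [zero_add]
    refine (TG_le hB h _).trans (le_of_eq ?_)
    congr 2
    change B * Real.exp (-(2 * (Real.log (Ab.N m) - α))) = _
    rw [Real.rpow_def_of_pos (Ab.N_pos' hm), mul_assoc, ← Real.exp_add]
    congr 2
    ring

variable (K) in
/-- the weight of `0` -/
noncomputable def czK (a : ℝ) : ℝ≥0∞ := (geo K).cz (muG _ _) (puK K) (kap a)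

theorem czK_ne_top {a : ℝ} (ha : 0 < a) : czK K a ≠ ∞ := by
  classical
  refine Geo.cz_ne_top puK_spec (s₁ := -Real.log (2 * CK K)) (fun g hg => ?_)
    (sum_bw_ne_top ENNReal.zero_ne_top zero_le_one (fun s => by rw [one_mul]) 0) (kap_le_abs ha)
  have hC := CK_pos (K := K)
  have h1 := thK_FE one_ne_zero (f := fun _ => 1) (fun _ _ _ => rfl) g
  rw [fhat_one, thK_one, thK_one, ← Complex.ofReal_mul, Nr_one, Nat.cast_one, mul_one] at h1
  have h2 : 2 * CK K ≤ Real.exp (-lK g) := by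
    rw [← Real.exp_log (mul_pos two_pos hC)]
    exact Real.exp_le_exp.2 (le_neg.1 hg)
  have h3 : (2 : ℝ) ≤ ∑' x : R K, WK (x : K) g := by
    rw [Complex.ofReal_injective h1]
    refine le_trans ?_ (le_mul_of_one_le_right (by positivity) (one_le_sum_WK _))
    rw [inv_mul_eq_div, le_div_iff₀ hC]
    exact h2
  have h4 : ∑' x, (geo K).E 1 x g = 1 + ∑' x, (geo K).E 0 x g := by
    rw [← tsum_ite_eq (0 : R K) (fun _ => (1 : ℝ≥0∞)), ← ENNReal.tsum_add]
    refine tsum_congr fun x => ?_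
    unfold Geo.E
    split_ifs <;> simp
  have h5 := ENNReal.ofReal_le_ofReal h3
  rw [← tsum_E, h4, ENNReal.ofReal_ofNat, ← one_add_one_eq_two] at h5
  exact (ENNReal.add_le_add_iff_left ENNReal.one_ne_top).1 h5

theorem czK_ne_zero (a : ℝ) : czK K a ≠ 0 :=
  Geo.cz_ne_zero puK_spec (measurable_kap a) eG_le_one (TG_ne_zero a 0)

theorem czK_pos {a : ℝ} (ha : 0 < a) : 0 < (czK K a).toReal :=
  ENNReal.toReal_pos (czK_ne_zero a) (czK_ne_top ha)

theorem TG_ne_top {a : ℝ} (ha : 0 < a) (s : ℝ) : TG (io K) (qS (K := K)) (kap a) s ≠ ∞ :=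
  ne_top_of_le_ne_top (ENNReal.mul_ne_top ENNReal.ofReal_ne_top (mom_ne_top one_lt_qS two_pos))
    (TG_le (Real.exp_pos _).le (kap_le ha 2) s)

variable (K) in
/-- the radial weight of width `a` -/
noncomputable def ThA (a x : ℝ) : ℝ :=
  (TG (io K) (qS (K := K)) (kap a) (Real.log x - Real.log (CK K))).toReal / (czK K a).toReal

theorem invMel_ThA {a : ℝ} (ha : 0 < a) : InvMel (ThA K a)
    (rho (2 * π * Real.sqrt (a / π) / (czK K a).toReal) (CK K / (2 * π) ^ Fintype.card (io K)) a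
      (Fintype.card (io K)) (qS (K := K))) := invMel one_lt_qS ha (czK_pos ha) CK_pos

variable (K) in
/-- the radial structure of width `a` -/
@[reducible] noncomputable def radA {a : ℝ} (ha : 0 < a) : Ab.Rad (M K) where
  Th := ThA K a
  Th_nonneg _ _ := div_nonneg ENNReal.toReal_nonneg ENNReal.toReal_nonneg
  Th_lower := ⟨CK K, (TG (io K) (qS (K := K)) (kap a) 0).toReal / (czK K a).toReal, CK_pos,
    div_pos (ENNReal.toReal_pos (TG_ne_zero a 0) (TG_ne_top ha 0)) (czK_pos ha), fun x hx h =>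
      div_le_div_of_nonneg_right (ENNReal.toReal_mono (TG_ne_top ha _)
        (TG_anti (sub_nonpos.2 (Real.log_le_log hx h)))) ENNReal.toReal_nonneg⟩
  mellin σ hσ := mellin_field (div_pos CK_pos (by positivity)) one_lt_qS ha (invMel_ThA ha) σ hσ

theorem gr_bw {a : ℝ} (ha : 0 < a) {A : ℝ} (hA : 0 < A) (m : M K) :
    ((geo K).bw (muG _ _) (czK K a) (kap a) (Real.log A + Real.log (CK K)) m).toReal =
      (czK K a).toReal * @Ab.gr (M K) _ _ (radA K ha) A m := by
  unfold Geo.bw Ab.gr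
  split_ifs with hm
  · exact (mul_one _).symm
  · change _ = _ * ThA K a _
    rw [ThA, mul_div_cancel₀ _ (czK_pos ha).ne', Real.log_div (Ab.N_pos' hm).ne' hA.ne', sub_sub]
    rfl

theorem invU_fhat {n : R K} (hn : n ≠ 0) {f : R K → ℂ} (hf : PerM n f) (hU : InvU f) :
    InvU (fhat n f) := by
  intro η hη x y h
  have h1 : y = ofK η hη.1 * x := Subtype.ext h
  rw [fhat, fhat, ← rsum_comp_mul (u := (ofK η hη.1).1) ⟨(ofK η hη.1)⁻¹.1, 0, by simp⟩
    (hf.mul (E_per hn x))]
  refine rsum_congr fun t => ?_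
  rw [hU η hη t (ofK η hη.1 * t) rfl, h1]
  congr 2
  ring

theorem PerM.bdd {n : R K} (hn : n ≠ 0) {f : R K → ℂ} (hf : PerM n f) : ∃ B, ∀ x, ‖f x‖ ≤ B := by
  have := finite_Rs hn
  obtain ⟨B, hB⟩ := (Set.finite_range fun ρ : Rs n => ‖f (Quotient.out ρ)‖).bddAbove
  exact ⟨B, fun x => hf.out x ▸ hB ⟨_, rfl⟩⟩

theorem radPoisA {a : ℝ} (ha : 0 < a) {n : R K} (hn : n ≠ 0) {f : R K → ℂ} (hf : PerM n f)
    (hU : InvU f) {A : ℝ} (hA : 0 < A) :
    ∑' x : M K, lift f x * (@Ab.gr (M K) _ _ (radA K ha) A x : ℂ) = ((A / Nr n : ℝ) : ℂ) *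
      ∑' y : M K, lift (fhat n f) y * (@Ab.gr (M K) _ _ (radA K ha) (Nr n / A) y : ℂ) := by
  obtain ⟨B, hB⟩ := PerM.bdd hn hf
  have := finite_Rs hn
  have hC := CK_pos (K := K)
  have hN : (0 : ℝ) < Nr n := by exact_mod_cast Nr_pos hn
  have h := Geo.poisson (μ := muG _ _) puK_spec (measurable_kap a) (kap_neg a)
    (sum_bw_ne_top (czK_ne_top ha) (Real.exp_pos _).le (kap_le ha 2)) (f := lift f)
    (f' := lift (fhat n f)) (B := B) (B' := Nq n * B) (fun m => hB _)
    (fun m => norm_rsum_le n fun x => by rw [norm_mul, norm_E, mul_one]; exact hB x)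
    (β := (CK K * Nr n)⁻¹) (a := dK K - posK (n : K)) (fun g => by
      rw [geo_th, geo_th]
      change thK (fun x => lift f (mkM x)) g = _ * thK (fun x => lift (fhat n f) (mkM x)) _
      simp only [lift_mkM hU, lift_mkM (invU_fhat hn hf hU)]
      exact thK_FE hn hf g) (Real.log A + Real.log (CK K))
  have e1 : -(geo K).l (dK K - posK (n : K)) - (Real.log A + Real.log (CK K)) =
      Real.log (Nr n / A) + Real.log (CK K) := by
    change -lK _ - _ = _
    rw [map_sub, lK_dK, lK_pos hn, Real.log_div hN.ne' hA.ne']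
    ring
  have e2 : (CK K * Nr n)⁻¹ * Real.exp (Real.log A + Real.log (CK K)) = A / Nr n := by
    rw [Real.exp_add, Real.exp_log hA, Real.exp_log hC]
    field_simp
  change ∑' m, lift f m * (((geo K).bw _ (czK K a) _ _ m).toReal : ℂ) =
    _ * ∑' m, lift _ m * (((geo K).bw _ (czK K a) _ _ m).toReal : ℂ) at h
  simp only [e1, e2, gr_bw ha hA, gr_bw ha (div_pos hN hA), Complex.ofReal_mul,
    mul_left_comm _ ((czK K a).toReal : ℂ), tsum_mul_left] at h
  exact mul_left_cancel₀ (by exact_mod_cast (czK_pos ha).ne') h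

theorem pois1A {a : ℝ} (ha : 0 < a) : @Ab.Pois1 (M K) _ _ (radA K ha) := by
  intro A hA
  have h := radPoisA (K := K) ha one_ne_zero (f := fun _ => 1) (fun _ _ _ => rfl)
    (fun _ _ _ _ _ => rfl) hA
  simp only [fhat_one, lift, one_mul, Nr_one, Nat.cast_one, div_one, one_div] at h
  exact_mod_cast h

/-- the radial weight -/
noncomputable instance instRad : Ab.Rad (M K) := radA K one_pos

/-- **radial Poisson summation** -/
theorem radPois {n : R K} (hn : n ≠ 0) {f : R K → ℂ} (hf : PerM n f) (hU : InvU f) {A : ℝ}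
    (hA : 0 < A) : ∑' x : M K, lift f x * (Ab.gr A x : ℂ) =
      ((A / Nr n : ℝ) : ℂ) * ∑' y : M K, lift (fhat n f) y * (Ab.gr (Nr n / A) y : ℂ) :=
  radPoisA one_pos hn hf hU hA

theorem pois1 : Ab.Pois1 (M K) := pois1A one_pos

theorem thMellin : Ab.ThMellin (M K) := by
  have h8 : (0 : ℝ) < 1 / 8 := by norm_num
  exact thMellin_of (radA K one_pos) (radA K h8) (pois1A h8)
    (div_pos (by positivity) (czK_pos h8)) (div_pos CK_pos (by positivity)) one_lt_qS
    (invMel_ThA one_pos) (invMel_ThA h8)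

end Vale.Agent.P016Z.Sc
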