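import Mathlib.MeasureTheory.Integral.DominatedConvergence
import Mathlib.MeasureTheory.Group.Integral
import Mathlib.MeasureTheory.Group.LIntegral
import Mathlib.Topology.Algebra.InfiniteSum.Constructions
import Mathlib.Analysis.Complex.Basic
import Mathlib.Tactic

/-!
P016, block SC: partitions of unity for a countable group acting by translations, unfolding.
-/

namespace Vale.Agent.P016Z.Sc

open MeasureTheory
open scoped ENNReal

section pu

variable {G : Type} [AddCommGroup G] [MeasurableSpace G]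
variable {U : Type} [CommGroup U] {φ : U → G}

/-- `φ` is a homomorphism -/
def IsHom (φ : U → G) : Prop := ∀ u v, φ (u * v) = φ u + φ v

omit [MeasurableSpace G] in
theorem IsHom.one (h : IsHom φ) : φ 1 = 0 := by
  have := h 1 1
  rw [mul_one] at this
  simpa using this

omit [MeasurableSpace G] in
theorem IsHom.inv (h : IsHom φ) (u : U) : φ u⁻¹ = -φ u := by
  have := h u u⁻¹
  rw [mul_inv_cancel, h.one] at this
  exact (neg_eq_of_add_eq_zero_right this.symm).symm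

/-- partitions of unity -/
def IsPU (φ : U → G) (ψ : G → ℝ≥0∞) : Prop := Measurable ψ ∧ ∀ g, ∑' u, ψ (g + φ u) = 1

theorem IsPU.le_one (h : IsHom φ) {ψ : G → ℝ≥0∞} (hψ : IsPU φ ψ) (g : G) : ψ g ≤ 1 := by
  have := ENNReal.le_tsum (f := fun u => ψ (g + φ u)) 1
  rwa [hψ.2, h.one, add_zero] at this

theorem IsPU.sum_neg (h : IsHom φ) {ψ : G → ℝ≥0∞} (hψ : IsPU φ ψ) (g : G) :
    ∑' u, ψ (g - φ u) = 1 := by
  rw [← hψ.2 g, ← (Equiv.inv U).tsum_eq]
  simp only [Equiv.inv_apply, h.inv, sub_neg_eq_add]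

variable [MeasurableAdd G] [MeasurableNeg G]

omit [MeasurableNeg G] [CommGroup U] in
theorem IsPU.add {ψ : G → ℝ≥0∞} (hψ : IsPU φ ψ) (a : G) : IsPU φ fun g => ψ (g + a) :=
  ⟨hψ.1.comp (measurable_add_const a), fun g => by
    simpa only [add_right_comm g _ a] using hψ.2 (g + a)⟩

theorem IsPU.sub (h : IsHom φ) {ψ : G → ℝ≥0∞} (hψ : IsPU φ ψ) (a : G) :
    IsPU φ fun g => ψ (a - g) :=
  ⟨by
    simp only [sub_eq_add_neg]
    exact hψ.1.comp ((measurable_const_add a).comp measurable_neg), fun g => by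
    simpa only [sub_sub] using hψ.sum_neg h (a - g)⟩

variable [Countable U]

omit [MeasurableNeg G] in
theorem exists_pu (h : IsHom φ) {e : G → ℝ≥0∞} (he : Measurable e)
    (h0 : ∀ g, ∑' u, e (g + φ u) ≠ 0) (h1 : ∀ g, ∑' u, e (g + φ u) ≠ ∞) :
    ∃ ψ, IsPU φ ψ := by
  refine ⟨fun g => e g * (∑' u, e (g + φ u))⁻¹, he.mul (Measurable.inv
    (Measurable.tsum fun u => he.comp (measurable_add_const _))), fun g => ?_⟩
  have h2 : ∀ v, ∑' u, e (g + φ v + φ u) = ∑' u, e (g + φ u) := fun v => by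
    rw [← (Equiv.mulLeft v).tsum_eq fun u => e (g + φ u)]
    simp only [Equiv.coe_mulLeft, h _ _, add_assoc]
  simp only [h2]
  rw [ENNReal.tsum_mul_right, ENNReal.mul_inv_cancel (h0 g) (h1 g)]

variable {μ : Measure G} [μ.IsAddRightInvariant]

omit [MeasurableNeg G] in
/-- unfolding -/
theorem IsPU.unfold (h : IsHom φ) {ψ F : G → ℝ≥0∞} (hψ : IsPU φ ψ) (hF : Measurable F) :
    ∑' u, ∫⁻ g, ψ g * F (g + φ u) ∂μ = ∫⁻ g, F g ∂μ := by
  have h1 : ∀ u, ∫⁻ g, ψ g * F (g + φ u) ∂μ = ∫⁻ g, ψ (g - φ u) * F g ∂μ := fun u => by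
    rw [← lintegral_add_right_eq_self (fun g => ψ (g - φ u) * F g) (φ u)]
    simp only [add_sub_cancel_right]
  simp only [h1]
  have h2 : ∀ u, Measurable fun g => ψ (g - φ u) * F g := fun u => by
    simp only [sub_eq_add_neg]
    exact (hψ.1.comp (measurable_add_const (-φ u))).mul hF
  rw [← lintegral_tsum fun u => (h2 u).aemeasurable]
  refine lintegral_congr fun g => ?_
  rw [ENNReal.tsum_mul_right, hψ.sum_neg h, one_mul]

omit [MeasurableNeg G] in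
/-- the integral of an invariant function does not depend on the partition of unity -/
theorem IsPU.indep (h : IsHom φ) {ψ ψ' F : G → ℝ≥0∞} (hψ : IsPU φ ψ) (hψ' : IsPU φ ψ')
    (hF : Measurable F) (hi : ∀ u g, F (g + φ u) = F g) :
    ∫⁻ g, ψ g * F g ∂μ = ∫⁻ g, ψ' g * F g ∂μ := by
  have h1 : Measurable fun g => ψ' g * F g := hψ'.1.mul hF
  have h2 : ∀ u, Measurable fun g => ψ g * (ψ' (g + φ u) * F (g + φ u)) := fun u =>
    hψ.1.mul (h1.comp (measurable_add_const (φ u)))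
  rw [← hψ.unfold h h1, ← lintegral_tsum fun u => (h2 u).aemeasurable]
  refine lintegral_congr fun g => ?_
  simp only [hi]
  rw [ENNReal.tsum_mul_left, ENNReal.tsum_mul_right, hψ'.2, one_mul]

end pu

/-- integration of a series with bounded coefficients -/
theorem integral_series {G X : Type} [MeasurableSpace G] {μ : Measure G} [Countable X]
    {E : X → G → ℝ≥0∞} (hE : ∀ x, Measurable (E x)) (hs : ∑' x, ∫⁻ g, E x g ∂μ ≠ ∞)
    {f : X → ℂ} {B : ℝ} (hf : ∀ x, ‖f x‖ ≤ B) :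
    ∫ g, ∑' x, f x * ((E x g).toReal : ℂ) ∂μ = ∑' x, f x * ((∫⁻ g, E x g ∂μ).toReal : ℂ) := by
  rw [integral_tsum]
  · refine tsum_congr fun x => ?_
    rw [integral_const_mul, integral_complex_ofReal, integral_toReal (hE x).aemeasurable]
    exact ae_lt_top (hE x) (ENNReal.ne_top_of_tsum_ne_top hs x)
  · intro x
    exact ((Complex.measurable_ofReal.comp (hE x).ennreal_toReal).const_mul _).aestronglyMeasurable
  · refine ne_top_of_le_ne_top (ENNReal.mul_ne_top ENNReal.ofReal_ne_top hs (a := .ofReal B)) ?_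
    rw [← ENNReal.tsum_mul_left]
    refine ENNReal.tsum_le_tsum fun x => ?_
    rw [← lintegral_const_mul _ (hE x)]
    refine lintegral_mono fun g => ?_
    rw [enorm_mul]
    refine mul_le_mul' ?_ ?_
    · rw [← ofReal_norm]
      exact ENNReal.ofReal_le_ofReal (hf x)
    · rw [← ofReal_norm, Complex.norm_real, Real.norm_of_nonneg ENNReal.toReal_nonneg]
      exact ENNReal.ofReal_toReal_le

/-- summation over the fibres of a map -/
theorem tsum_fibre {X M : Type} (p : X → M) {a : X → ℝ≥0∞} (hs : ∑' x, a x ≠ ∞) {f : M → ℂ}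
    {B : ℝ} (hf : ∀ x, ‖f (p x)‖ ≤ B) :
    ∑' x, f (p x) * ((a x).toReal : ℂ) =
      ∑' m, f m * ((∑' x : p ⁻¹' {m}, a x).toReal : ℂ) := by
  have h0 := ENNReal.summable_toReal hs
  have h1 : Summable fun x => f (p x) * ((a x).toReal : ℂ) := by
    refine Summable.of_norm_bounded (h0.mul_left B) fun x => ?_
    rw [norm_mul, Complex.norm_real, Real.norm_of_nonneg ENNReal.toReal_nonneg]
    exact mul_le_mul_of_nonneg_right (hf x) ENNReal.toReal_nonneg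
  rw [← (h1.hasSum.tsum_fiberwise p).tsum_eq]
  refine tsum_congr fun m => ?_
  rw [ENNReal.tsum_toReal_eq fun x => ENNReal.ne_top_of_tsum_ne_top hs _, Complex.ofReal_tsum,
    ← tsum_mul_left]
  refine tsum_congr fun x => ?_
  rw [show p x = m from x.2]

theorem tsum_fibre' {X M : Type} (p : X → M) (a : X → ℝ≥0∞) :
    ∑' x, a x = ∑' m, ∑' x : p ⁻¹' {m}, a x := by
  rw [← (Equiv.sigmaFiberEquiv p).tsum_eq, ENNReal.tsum_sigma']
  rfl

/-- the abstract geometric data -/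
structure Geo (G U X M : Type) [AddCommGroup G] [MeasurableSpace G] [CommGroup U] [Zero X]
    [Zero M] where
  φ : U → G
  hom : IsHom φ
  l : G →+ ℝ
  l_meas : Measurable l
  l_surj : Function.Surjective l
  l_phi : ∀ u, l (φ u) = 0
  e : G → ℝ≥0∞
  e_meas : Measurable e
  pos : X → G
  p : X → M
  nrm : M → ℝ
  p_surj : Function.Surjective p
  p_zero : ∀ x, p x = 0 ↔ x = 0
  fib : ∀ x, x ≠ 0 → ∃ q : U ≃ p ⁻¹' {p x}, ∀ u, pos (q u) = pos x + φ u
  l_pos : ∀ x, x ≠ 0 → l (pos x) = Real.log (nrm (p x))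

namespace Geo

variable {G U X M : Type} [AddCommGroup G] [MeasurableSpace G] [CommGroup U] [Zero X] [Zero M]
  (Γ : Geo G U X M) (μ : Measure G)

open Classical in
/-- the terms of the theta series, with weight `z` at `0` -/
noncomputable def E (z : ℝ≥0∞) (x : X) (g : G) : ℝ≥0∞ := if x = 0 then z else Γ.e (g + Γ.pos x)

/-- the theta series -/
noncomputable def th (f : X → ℂ) (g : G) : ℂ := ∑' x, f x * ((Γ.E 1 x g).toReal : ℂ)

/-- the radial weight in logarithmic coordinates -/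
noncomputable def T (κ : ℝ → ℝ≥0∞) (s : ℝ) : ℝ≥0∞ := ∫⁻ g, Γ.e g * κ (Γ.l g - s) ∂μ

/-- the weight of `0` -/
noncomputable def cz (ψ : G → ℝ≥0∞) (κ : ℝ → ℝ≥0∞) : ℝ≥0∞ := ∫⁻ g, ψ g * κ (Γ.l g) ∂μ

open Classical in
/-- the weight of a class -/
noncomputable def bw (c : ℝ≥0∞) (κ : ℝ → ℝ≥0∞) (α : ℝ) (m : M) : ℝ≥0∞ :=
  if m = 0 then c else Γ.T μ κ (Real.log (Γ.nrm m) - α)

variable {Γ μ} [MeasurableAdd G] [MeasurableNeg G] [Countable U] [μ.IsAddRightInvariant]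
  {ψ ψ' : G → ℝ≥0∞} {κ : ℝ → ℝ≥0∞}

omit [MeasurableNeg G] [Countable U] in
theorem E_meas (z : ℝ≥0∞) (x : X) : Measurable (Γ.E z x) := by
  unfold E
  split_ifs
  · exact measurable_const
  · exact Γ.e_meas.comp (measurable_add_const _)

omit [MeasurableNeg G] in
theorem cz_shift (hψ : IsPU Γ.φ ψ) (hψ' : IsPU Γ.φ ψ') (hκ : Measurable κ) (α : ℝ) :
    ∫⁻ g, ψ' g * κ (Γ.l g + α) ∂μ = Γ.cz μ ψ κ := by
  obtain ⟨a, rfl⟩ := Γ.l_surj α
  rw [cz, hψ.indep Γ.hom (hψ'.add (-a)) (F := fun g => κ (Γ.l g)) (hκ.comp Γ.l_meas)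
    (fun u g => by rw [map_add, Γ.l_phi, add_zero]),
    ← lintegral_add_right_eq_self (fun g => ψ' (g + -a) * κ (Γ.l g)) a]
  simp only [add_neg_cancel_right, map_add]

omit [MeasurableNeg G] in
theorem fibre_sum (hψ : IsPU Γ.φ ψ) (hψ' : IsPU Γ.φ ψ') (hκ : Measurable κ) (α : ℝ) (z : ℝ≥0∞)
    (m : M) : ∑' x : Γ.p ⁻¹' {m}, ∫⁻ g, ψ' g * κ (Γ.l g + α) * Γ.E z x g ∂μ =
      Γ.bw μ (Γ.cz μ ψ κ * z) κ α m := by
  have hm : Measurable fun g => κ (Γ.l g + α) := hκ.comp (Γ.l_meas.add_const α)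
  unfold bw
  split_ifs with h
  · subst h
    rw [tsum_eq_single (⟨0, (Γ.p_zero 0).2 rfl⟩ : Γ.p ⁻¹' {0}) fun x hx =>
      absurd (Subtype.ext ((Γ.p_zero x.1).1 x.2)) hx]
    simp only [E, if_true]
    rw [lintegral_mul_const _ (show Measurable fun g => ψ' g * κ (Γ.l g + α) from hψ'.1.mul hm),
      cz_shift hψ hψ' hκ]
  · obtain ⟨x, rfl⟩ := Γ.p_surj m
    have hx : x ≠ 0 := fun h1 => h ((Γ.p_zero x).2 h1)
    obtain ⟨q, hq⟩ := Γ.fib x hx
    have h1 : Measurable fun g => κ (Γ.l g + α) * Γ.e (g + Γ.pos x) :=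
      hm.mul (Γ.e_meas.comp (measurable_add_const _))
    rw [← q.tsum_eq, T, ← lintegral_add_right_eq_self _ (Γ.pos x)]
    simp only [map_add, Γ.l_pos x hx]
    have h2 : ∀ g, Γ.e (g + Γ.pos x) *
        κ (Γ.l g + Real.log (Γ.nrm (Γ.p x)) - (Real.log (Γ.nrm (Γ.p x)) - α)) =
        κ (Γ.l g + α) * Γ.e (g + Γ.pos x) := fun g => by
      rw [mul_comm]; congr 2; ring
    simp only [h2]
    rw [← hψ'.unfold Γ.hom h1]
    refine tsum_congr fun u => lintegral_congr fun g => ?_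
    have h3 : (q u : X) ≠ 0 := fun h3 => h (by rw [← (q u).2, h3]; exact (Γ.p_zero 0).2 rfl)
    rw [E, if_neg h3, hq, map_add, Γ.l_phi, add_zero, mul_assoc, add_right_comm, add_assoc]

omit [MeasurableNeg G] in
theorem total_sum (hψ : IsPU Γ.φ ψ) (hψ' : IsPU Γ.φ ψ') (hκ : Measurable κ) (α : ℝ)
    (z : ℝ≥0∞) : ∑' x, ∫⁻ g, ψ' g * κ (Γ.l g + α) * Γ.E z x g ∂μ =
      ∑' m, Γ.bw μ (Γ.cz μ ψ κ * z) κ α m := by
  rw [tsum_fibre' Γ.p]
  exact tsum_congr fun m => fibre_sum hψ hψ' hκ α z m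

variable [Countable X]

omit [MeasurableNeg G] in
theorem integral_th (hψ : IsPU Γ.φ ψ) (hψ' : IsPU Γ.φ ψ') (hκ : Measurable κ) (α : ℝ)
    (hs : ∑' m, Γ.bw μ (Γ.cz μ ψ κ) κ α m ≠ ∞) {f : M → ℂ} {B : ℝ} (hf : ∀ m, ‖f m‖ ≤ B) :
    ∫ g, ((ψ' g * κ (Γ.l g + α)).toReal : ℂ) * Γ.th (fun x => f (Γ.p x)) g ∂μ =
      ∑' m, f m * ((Γ.bw μ (Γ.cz μ ψ κ) κ α m).toReal : ℂ) := by
  have hm : ∀ x, Measurable fun g => ψ' g * κ (Γ.l g + α) * Γ.E 1 x g := fun x =>
    (hψ'.1.mul (hκ.comp (Γ.l_meas.add_const α))).mul (E_meas 1 x)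
  have h1 := total_sum (μ := μ) hψ hψ' hκ α 1
  rw [mul_one] at h1
  rw [← h1] at hs
  have h2 := integral_series hm hs (f := fun x => f (Γ.p x)) fun x => hf _
  rw [tsum_fibre Γ.p hs fun x => hf _] at h2
  simp only [fibre_sum hψ hψ' hκ α 1, mul_one] at h2
  rw [← h2]
  refine integral_congr_ae (ae_of_all _ fun g => ?_)
  simp only [th]
  rw [← tsum_mul_left]
  refine tsum_congr fun x => ?_
  rw [ENNReal.toReal_mul (b := Γ.E 1 x g)]
  push_cast
  ring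

variable [μ.IsNegInvariant]

/-- radial Poisson summation from the functional equation of the theta series -/
theorem poisson (hψ : IsPU Γ.φ ψ) (hκ : Measurable κ)
    (hsym : ∀ s, (κ (-s)).toReal = Real.exp (-s) * (κ s).toReal)
    (hs : ∀ α, ∑' m, Γ.bw μ (Γ.cz μ ψ κ) κ α m ≠ ∞) {f f' : M → ℂ} {B B' : ℝ}
    (hf : ∀ m, ‖f m‖ ≤ B) (hf' : ∀ m, ‖f' m‖ ≤ B') {β : ℝ} {a : G}
    (hFE : ∀ g, Γ.th (fun x => f (Γ.p x)) g =
      ((β * Real.exp (-Γ.l g) : ℝ) : ℂ) * Γ.th (fun x => f' (Γ.p x)) (a - g)) (α : ℝ) :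
    ∑' m, f m * ((Γ.bw μ (Γ.cz μ ψ κ) κ α m).toReal : ℂ) = ((β * Real.exp α : ℝ) : ℂ) *
      ∑' m, f' m * ((Γ.bw μ (Γ.cz μ ψ κ) κ (-Γ.l a - α) m).toReal : ℂ) := by
  rw [← integral_th hψ hψ hκ α (hs _) hf, ← integral_th hψ (hψ.sub Γ.hom a) hκ _ (hs _) hf',
    ← integral_const_mul]
  have h1 : ∀ F : G → ℂ, ∫ g, F (a - g) ∂μ = ∫ g, F g ∂μ := fun F => by
    rw [← integral_neg_eq_self (fun g => F (a - g)), ← integral_add_right_eq_self F a]
    simp only [sub_neg_eq_add, add_comm]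
  rw [← h1]
  refine integral_congr_ae (ae_of_all _ fun g => ?_)
  simp only
  rw [hFE, sub_sub_cancel, ENNReal.toReal_mul, ENNReal.toReal_mul, map_sub,
    show Γ.l a - Γ.l g + α = -(Γ.l g + (-Γ.l a - α)) by ring, hsym]
  have h2 : Real.exp (-(Γ.l g + (-Γ.l a - α))) * Real.exp (-(Γ.l a - Γ.l g)) = Real.exp α := by
    rw [← Real.exp_add]; congr 1; ring
  rw [← h2]
  push_cast
  ring

/-- finiteness of the volume -/
theorem cz_ne_top (hψ : IsPU Γ.φ ψ) {s₁ B : ℝ}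
    (h1 : ∀ g, Γ.l g ≤ s₁ → 1 ≤ ∑' x, Γ.E 0 x g)
    (h2 : ∑' m, Γ.bw μ 0 (fun s => ENNReal.ofReal (Real.exp (2 * s))) 0 m ≠ ∞)
    (hB : ∀ s, κ s ≤ ENNReal.ofReal (B * Real.exp (-(2 * |s|)))) : Γ.cz μ ψ κ ≠ ∞ := by
  set k : ℝ → ℝ≥0∞ := fun s => ENNReal.ofReal (Real.exp (2 * s)) with hk
  have hkm : Measurable k := by rw [hk]; fun_prop
  set k1 : ℝ → ℝ≥0∞ := (Set.Iic s₁).indicator k with hk1
  have hk1m : Measurable k1 := hkm.indicator measurableSet_Iic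
  have h3 : Γ.cz μ ψ k1 ≠ ∞ := by
    have h4 := total_sum (μ := μ) hψ hψ hkm 0 0
    rw [mul_zero] at h4
    rw [← h4, ← lintegral_tsum fun x => (show Measurable fun g => ψ g * k (Γ.l g + 0) * Γ.E 0 x g
      from (hψ.1.mul (hkm.comp (Γ.l_meas.add_const 0))).mul (E_meas 0 x)).aemeasurable] at h2
    refine ne_top_of_le_ne_top h2 (lintegral_mono fun g => ?_)
    simp only
    rw [ENNReal.tsum_mul_left, add_zero]
    by_cases h5 : Γ.l g ≤ s₁
    · rw [hk1, Set.indicator_of_mem (show Γ.l g ∈ Set.Iic s₁ from h5)]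
      exact le_mul_of_one_le_right' (h1 g h5)
    · rw [hk1, Set.indicator_of_notMem (show Γ.l g ∉ Set.Iic s₁ from h5), mul_zero]
      exact zero_le
  have h4 : ∫⁻ g, ψ g * k1 (-Γ.l g + s₁) ∂μ = Γ.cz μ ψ k1 := by
    rw [← cz_shift hψ (hψ.sub Γ.hom 0) hk1m s₁, ← lintegral_neg_eq_self]
    simp only [map_neg, neg_neg, zero_sub]
  have h5 := cz_shift (μ := μ) hψ hψ hk1m s₁
  have m1 : Measurable fun g => ψ g * k1 (Γ.l g + s₁) := hψ.1.mul (hk1m.comp (Γ.l_meas.add_const _))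
  have m2 : Measurable fun g => ψ g * k1 (-Γ.l g + s₁) :=
    hψ.1.mul (hk1m.comp (Γ.l_meas.neg.add_const _))
  have h6 : ∀ s, κ s ≤ ENNReal.ofReal (B * Real.exp (-(2 * s₁))) * (k1 (s + s₁) + k1 (-s + s₁)) := by
    intro s
    have h7 : ∀ t : ℝ, t ≤ 0 → ENNReal.ofReal (B * Real.exp (2 * t)) ≤
        ENNReal.ofReal (B * Real.exp (-(2 * s₁))) * k1 (t + s₁) := fun t ht => by
      rw [hk1, Set.indicator_of_mem (show t + s₁ ∈ Set.Iic s₁ by simpa using ht), hk,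
        ← ENNReal.ofReal_mul' (Real.exp_pos _).le, mul_assoc, ← Real.exp_add]
      exact le_of_eq (by congr 3; ring)
    refine (hB s).trans ?_
    rw [mul_add]
    rcases le_total s 0 with h8 | h8
    · rw [abs_of_nonpos h8, mul_neg, neg_neg]
      exact le_add_right (h7 s h8)
    · rw [abs_of_nonneg h8, ← mul_neg]
      exact le_add_left (h7 (-s) (neg_nonpos.2 h8))
  refine ne_top_of_le_ne_top (ENNReal.mul_ne_top
    (ENNReal.ofReal_ne_top (r := B * Real.exp (-(2 * s₁)))) (ENNReal.add_ne_top.2 ⟨h3, h3⟩)) ?_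
  nth_rw 1 [← h5]
  rw [← h4, ← lintegral_add_left m1, ← lintegral_const_mul' _ _ ENNReal.ofReal_ne_top]
  refine lintegral_mono fun g => ?_
  simp only
  rw [← mul_add, mul_left_comm]
  exact mul_le_mul_right (h6 _) _

omit [MeasurableNeg G] [Countable X] [μ.IsNegInvariant] in
theorem cz_ne_zero (hψ : IsPU Γ.φ ψ) (hκ : Measurable κ) (he : ∀ g, Γ.e g ≤ 1)
    (h : Γ.T μ κ 0 ≠ 0) : Γ.cz μ ψ κ ≠ 0 := by
  intro h0
  refine h (le_antisymm ?_ zero_le)
  have h1 : Measurable fun g => Γ.e g * κ (Γ.l g - 0) :=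
    Γ.e_meas.mul (hκ.comp (Γ.l_meas.sub_const 0))
  rw [T, ← hψ.unfold Γ.hom h1]
  refine le_of_eq (ENNReal.tsum_eq_zero.2 fun u => le_antisymm ?_ zero_le)
  rw [← h0]
  refine lintegral_mono fun g => mul_le_mul_right ?_ _
  rw [map_add, Γ.l_phi, add_zero, sub_zero]
  exact mul_le_of_le_one_left' (he _)

end Geo

end Vale.Agent.P016Z.Sc
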