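import Vale.Agent.P016Z.Sc.MelA
import Mathlib.Analysis.MellinInversion
import Mathlib.NumberTheory.LSeries.AbstractFuncEq
import Mathlib.MeasureTheory.Function.JacobianOneDim

/-!
P016, block SC3: inverse Mellin integrals on one line.
-/

namespace Vale.Agent.P016Z.Sc

open MeasureTheory Filter Topology Set Complex Asymptotics
open scoped Real FourierTransform

/-- `f` is the inverse Mellin transform of `F` on the line `Re = σ` -/
def LineRep (f : ℝ → ℂ) (F : ℂ → ℂ) (σ : ℝ) : Prop :=
  ∀ x : ℝ, 0 < x → f x = (1 / (2 * (π : ℂ))) *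
    ∫ t : ℝ, F ((σ : ℂ) + t * I) * (x : ℂ) ^ (-((σ : ℂ) + t * I))

variable {f : ℝ → ℂ} {F : ℂ → ℂ} {σ : ℝ}

theorem norm_line {x : ℝ} (hx : 0 < x) (σ t : ℝ) :
    ‖(x : ℂ) ^ (-((σ : ℂ) + t * I))‖ = x ^ (-σ) := by
  rw [norm_cpow_neg hx]; simp

theorem cont_cpow_line {x : ℝ} (hx : 0 < x) (σ : ℝ) :
    Continuous fun t : ℝ => (x : ℂ) ^ (-((σ : ℂ) + t * I)) :=
  Continuous.const_cpow (by fun_prop) (Or.inl (ofReal_ne_zero.2 hx.ne'))

theorem int_line (hi : Integrable fun t : ℝ => F (σ + t * I)) {x : ℝ} (hx : 0 < x) :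
    Integrable fun t : ℝ => F (σ + t * I) * (x : ℂ) ^ (-((σ : ℂ) + t * I)) :=
  hi.mul_bdd (c := x ^ (-σ)) (cont_cpow_line hx σ).aestronglyMeasurable
    (ae_of_all _ fun t => (norm_line hx σ t).le)

theorem int_norm_line {x : ℝ} (hx : 0 < x) :
    ∫ t : ℝ, ‖F (σ + t * I) * (x : ℂ) ^ (-((σ : ℂ) + t * I))‖ =
      (∫ t : ℝ, ‖F (σ + t * I)‖) * x ^ (-σ) := by
  rw [← integral_mul_const]
  exact integral_congr_ae (ae_of_all _ fun t => by simp only [norm_mul, norm_line hx])

theorem LineRep.bound (h : LineRep f F σ) :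
    ∃ C : ℝ, ∀ x : ℝ, 0 < x → ‖f x‖ ≤ C * x ^ (-σ) :=
  ⟨‖1 / (2 * (π : ℂ))‖ * ∫ t : ℝ, ‖F (σ + t * I)‖, fun x hx => by
    rw [h x hx, norm_mul, mul_assoc, ← int_norm_line hx]
    exact mul_le_mul_of_nonneg_left (norm_integral_le_integral_norm _) (norm_nonneg _)⟩

theorem LineRep.contOn (h : LineRep f F σ) (hi : Integrable fun t : ℝ => F (σ + t * I)) :
    ContinuousOn f (Ioi 0) := by
  refine ContinuousOn.congr (continuousOn_const.mul fun x hx => ?_) h
  have hx : 0 < x := hx
  refine ContinuousAt.continuousWithinAt (continuousAt_of_dominated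
    (bound := fun t => ‖F (σ + t * I)‖ * ((x / 2) ^ (-σ) + (2 * x) ^ (-σ))) ?_ ?_
    (hi.norm.mul_const _) (ae_of_all _ fun t => continuousAt_const.mul ?_))
  · filter_upwards [lt_mem_nhds hx] with y hy using (int_line hi hy).aestronglyMeasurable
  · filter_upwards [Ioo_mem_nhds (show x / 2 < x by linarith) (show x < 2 * x by linarith)]
      with y hy
    have hy0 : 0 < y := lt_trans (by positivity) hy.1
    refine ae_of_all _ fun t => ?_
    rw [norm_mul, norm_line hy0]
    refine mul_le_mul_of_nonneg_left ?_ (norm_nonneg _)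
    rcases le_total 0 σ with h | h
    · exact (Real.rpow_le_rpow_of_nonpos (by positivity) hy.1.le (by linarith)).trans
        (le_add_of_nonneg_right (by positivity))
    · exact (Real.rpow_le_rpow hy0.le hy.2.le (by linarith)).trans
        (le_add_of_nonneg_left (by positivity))
  · exact continuousAt_ofReal_cpow_const _ _ (Or.inr hx.ne')

theorem LineRep.mellin_eq (h : LineRep f F σ) (hi : Integrable fun t : ℝ => F (σ + t * I))
    (hc : Continuous fun t : ℝ => F (σ + t * I)) (hm : MellinConvergent f σ) (t : ℝ) :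
    mellin f (σ + t * I) = F (σ + t * I) := by
  set g : ℝ → ℂ := fun y => F (σ + 2 * π * y * I) with hg
  have eg : g = fun y => (fun t : ℝ => F (σ + t * I)) (2 * π * y) := by
    ext y; simp [hg]
  have e1 : (fun u : ℝ => Real.exp (-σ * u) • f (Real.exp (-u))) = 𝓕⁻ g := by
    ext u
    have h1 := mellinInv_eq_fourierInv σ F (Real.exp_pos (-u))
    have h2 : mellinInv σ F (Real.exp (-u)) = f (Real.exp (-u)) := by
      rw [h _ (Real.exp_pos _), mellinInv, real_smul]
      push_cast
      simp only [smul_eq_mul, mul_comm]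
    rw [Real.log_exp, neg_neg, h2] at h1
    rw [h1, smul_eq_mul, real_smul, ← mul_assoc, ← ofReal_neg, ← ofReal_cpow (Real.exp_pos _).le,
      ← Real.exp_mul, ← ofReal_mul, ← Real.exp_add]
    simp [hg, mul_comm]
  have i1 : Integrable (𝓕⁻ g) := by
    have d : ∀ x ∈ (univ : Set ℝ), HasDerivWithinAt (fun x => Real.exp (-x)) (-Real.exp (-x))
        univ x := fun x _ => by simpa using (hasDerivAt_neg x).exp
    have im : (fun x => Real.exp (-x)) '' univ = Ioi 0 := by
      ext y
      refine ⟨fun ⟨x, _, e⟩ => e ▸ Real.exp_pos _, fun hy => ⟨-Real.log y, trivial, ?_⟩⟩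
      simp [Real.exp_log hy]
    rw [MellinConvergent, ← im, integrableOn_image_iff_integrableOn_abs_deriv_smul
      MeasurableSet.univ d (fun _ _ _ _ e => neg_injective (Real.exp_injective e)),
      integrableOn_univ] at hm
    rw [← e1]
    refine hm.congr (ae_of_all _ fun u => ?_)
    simp only
    rw [abs_neg, abs_of_pos (Real.exp_pos _), ← ofReal_one, ← ofReal_sub,
      ← ofReal_cpow (Real.exp_pos _).le, ← Real.exp_mul, smul_eq_mul, real_smul, real_smul,
      ← mul_assoc, ← ofReal_mul, ← Real.exp_add]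
    congr 3
    ring
  have i2 : Integrable (𝓕 g) := by
    refine i1.comp_neg.congr (ae_of_all _ fun u => ?_)
    simp only [Real.fourierInv_eq_fourier_neg, neg_neg]
  have i3 : Integrable g := eg ▸ hi.comp_mul_left' Real.two_pi_pos.ne'
  have c3 : Continuous g := eg ▸ hc.comp (continuous_const.mul continuous_id)
  rw [mellin_eq_fourier]
  simp only [add_re, ofReal_re, mul_re, I_re, mul_zero, ofReal_im, I_im, mul_one, sub_self,
    add_zero, add_im, mul_im, zero_add]
  rw [e1, c3.fourier_fourierInv_eq i3 i2, hg]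
  have : (π : ℂ) ≠ 0 := ofReal_ne_zero.2 Real.pi_ne_zero
  simp only
  congr 3
  push_cast
  field_simp

/-- the Dirichlet series of a family of positive numbers -/
noncomputable def dir {ι : Type} (y : ι → ℝ) (w : ℂ) : ℂ := ∑' u, (y u : ℂ) ^ (-w)

variable {ι : Type} {y : ι → ℝ}

theorem dir_bound (hy : ∀ u, 0 < y u) (hs : Summable fun u => y u ^ (-σ)) {w : ℂ}
    (hw : w.re = σ) : ‖dir y w‖ ≤ ∑' u, y u ^ (-σ) :=
  tsum_of_norm_bounded hs.hasSum fun u => by rw [norm_cpow_neg (hy u), hw]

theorem dir_cont (hy : ∀ u, 0 < y u) (hs : Summable fun u => y u ^ (-σ)) :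
    Continuous fun t : ℝ => dir y (σ + t * I) :=
  continuous_tsum (fun u => cont_cpow_line (hy u) σ) hs fun u t => (norm_line (hy u) σ t).le

theorem LineRep.summable (h : LineRep f F σ) (hy : ∀ u, 0 < y u)
    (hs : Summable fun u => y u ^ (-σ)) {x : ℝ} (hx : 0 < x) : Summable fun u => f (x * y u) := by
  obtain ⟨C, hC⟩ := h.bound
  refine Summable.of_norm_bounded (hs.mul_left (C * x ^ (-σ))) fun u => ?_
  rw [mul_assoc, ← Real.mul_rpow hx.le (hy u).le]
  exact hC _ (mul_pos hx (hy u))

theorem LineRep.tsum (h : LineRep f F σ) (hi : Integrable fun t : ℝ => F (σ + t * I))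
    (hy : ∀ u, 0 < y u) (hs : Summable fun u => y u ^ (-σ)) :
    LineRep (fun x => ∑' u, f (x * y u)) (fun w => F w * dir y w) σ := by
  intro x hx
  have : Countable ι := by
    have := hs.countable_support
    rw [Function.support_eq_univ fun u => (Real.rpow_pos_of_pos (hy u) _).ne'] at this
    exact countable_univ_iff.1 this
  simp only [fun u => h _ (mul_pos hx (hy u))]
  rw [tsum_mul_left, integral_tsum_of_summable_integral_norm
    (fun u => int_line hi (mul_pos hx (hy u)))]
  · congr 2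
    ext t
    simp only [ofReal_mul, fun u => mul_cpow_ofReal_nonneg hx.le (hy u).le, dir]
    rw [tsum_mul_left, tsum_mul_left]
    ring
  · simp only [fun u => int_norm_line (F := F) (σ := σ) (mul_pos hx (hy u)),
      fun u => Real.mul_rpow (z := -σ) hx.le (hy u).le]
    exact (hs.mul_left _).mul_left _

/-- a Mellin transform that converges everywhere is bounded on vertical strips -/
theorem mellin_bound (h : ∀ s : ℂ, MellinConvergent f s) (a b : ℝ) :
    ∃ K : ℝ, ∀ w : ℂ, a ≤ w.re → w.re ≤ b → ‖mellin f w‖ ≤ K := by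
  have i := (h a).norm.add (h b).norm
  refine ⟨_, fun w h1 h2 => norm_integral_le_of_norm_le i
    ((ae_restrict_iff' measurableSet_Ioi).2 (ae_of_all _ fun x hx => ?_))⟩
  have hx : 0 < x := hx
  simp only [Pi.add_apply, norm_smul, norm_cpow_eq_rpow_re_of_pos hx, sub_re, one_re, ofReal_re,
    ← add_mul]
  refine mul_le_mul_of_nonneg_right ?_ (norm_nonneg _)
  rcases le_total 1 x with h | h
  · exact (Real.rpow_le_rpow_of_exponent_le h (by linarith)).trans
      (le_add_of_nonneg_left (by positivity))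
  · exact (Real.rpow_le_rpow_of_exponent_ge hx h (by linarith)).trans
      (le_add_of_nonneg_right (by positivity))

/-- Riemann's continuation from the theta functional equation -/
theorem cont_of_fe {Θ : ℝ → ℂ} {G : ℂ → ℂ} (h : ∀ σ : ℝ, 1 < σ → LineRep Θ G σ)
    (hi : ∀ σ : ℝ, 1 < σ → Integrable fun t : ℝ => G (σ + t * I))
    (hc : Continuous fun t : ℝ => G ((2 : ℝ) + t * I))
    (fe : ∀ x : ℝ, 0 < x → 1 + Θ (1 / x) = x * (1 + Θ x)) :
    ∃ L : ℂ → ℂ, Differentiable ℂ L ∧
      (∀ a b : ℝ, ∃ K : ℝ, ∀ w : ℂ, a ≤ w.re → w.re ≤ b → ‖L w‖ ≤ K) ∧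
      ∀ w : ℂ, w.re = 2 → G w = L w - 1 / w - 1 / (1 - w) := by
  have li : LocallyIntegrableOn (fun x => 1 + Θ x) (Ioi 0) :=
    (continuousOn_const.add ((h 2 one_lt_two).contOn (hi 2 one_lt_two))).locallyIntegrableOn
      measurableSet_Ioi
  have top : ∀ r : ℝ, (fun x => 1 + Θ x - 1) =O[atTop] (· ^ r) := fun r => by
    obtain ⟨C, hC⟩ := (h (|r| + 2) (by linarith [abs_nonneg r])).bound
    refine IsBigO.of_bound |C| ?_
    filter_upwards [eventually_ge_atTop 1] with x hx
    rw [add_sub_cancel_left, Real.norm_of_nonneg (by positivity)]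
    exact (hC x (by linarith)).trans (mul_le_mul (le_abs_self C)
      (Real.rpow_le_rpow_of_exponent_le hx (by linarith [neg_abs_le r])) (by positivity)
      (abs_nonneg C))
  let P : WeakFEPair ℂ :=
    { f := fun x => 1 + Θ x, g := fun x => 1 + Θ x, k := 1, ε := 1, f₀ := 1, g₀ := 1
      hf_int := li, hg_int := li, hk := one_pos, hε := one_ne_zero
      h_feq := fun x hx => by rw [fe x hx]; simp
      hf_top := top, hg_top := top }
  refine ⟨P.Λ₀, P.differentiable_Λ₀,
    mellin_bound fun s => (P.isStrongFEPair_toStrongFEPair.hasMellin s).1, fun w hw => ?_⟩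
  have e : w = (2 : ℝ) + w.im * I := by rw [← hw, re_add_im]
  have m : ∀ s : ℂ, 1 < s.re → HasMellin Θ s (P.Λ s) := fun s hs => by
    simpa [P] using P.hasMellin (s := s) hs
  have := (h 2 one_lt_two).mellin_eq (hi 2 one_lt_two) hc (m _ (by simp)).1 w.im
  rw [← e, (m w (by rw [hw]; norm_num)).2] at this
  rw [← this, WeakFEPair.Λ]
  simp [P]

end Vale.Agent.P016Z.Sc
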