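import Vale.Agent.P016Z.Sc.Abs
import Mathlib.MeasureTheory.Constructions.Pi
import Mathlib.MeasureTheory.Measure.Haar.OfBasis
import Mathlib.MeasureTheory.Measure.Lebesgue.EqHaar
import Mathlib.MeasureTheory.Measure.Haar.Unique
import Mathlib.Analysis.SpecialFunctions.Log.Basic

/-!
P016, block SC: the scale group `(S → ℤ) × (ι → ℝ)`, its measure, the basic function and the
logarithmic Gaussian.
-/

namespace Vale.Agent.P016Z.Sc

open MeasureTheory
open scoped ENNReal Real

variable (S ι : Type) [Fintype S] [Fintype ι]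

/-- the scale group -/
abbrev GG : Type := (S → ℤ) × (ι → ℝ)

/-- the Haar measure -/
noncomputable def muG : Measure (GG S ι) :=
  (Measure.pi fun _ : S => (Measure.count : Measure ℤ)).prod volume

instance : SFinite (muG S ι) := by unfold muG; infer_instance

instance : (muG S ι).IsAddRightInvariant := by unfold muG; infer_instance

instance : (muG S ι).IsNegInvariant :=
  ⟨((Measure.measurePreserving_neg (Measure.pi fun _ : S => (Measure.count : Measure ℤ))).prod
    (Measure.measurePreserving_neg (volume : Measure (ι → ℝ)))).map_eq⟩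

variable {S ι}

/-- the logarithm of the norm -/
noncomputable def ellG (q : S → ℝ) : GG S ι →+ ℝ where
  toFun g := ∑ j, g.2 j - ∑ i, (g.1 i : ℝ) * Real.log (q i)
  map_zero' := by simp
  map_add' g h := by
    simp only [Prod.snd_add, Prod.fst_add, Pi.add_apply, Int.cast_add, add_mul,
      Finset.sum_add_distrib]
    ring

theorem ellG_apply (q : S → ℝ) (g : GG S ι) :
    ellG q g = ∑ j, g.2 j - ∑ i, (g.1 i : ℝ) * Real.log (q i) := rfl

theorem measurable_ellG (q : S → ℝ) : Measurable (ellG q : GG S ι → ℝ) := by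
  change Measurable fun g : GG S ι => ∑ j, g.2 j - ∑ i, (g.1 i : ℝ) * Real.log (q i)
  fun_prop

theorem ellG_surj [Nonempty ι] (q : S → ℝ) : Function.Surjective (ellG q : GG S ι → ℝ) := by
  intro s
  have h : (Fintype.card ι : ℝ) ≠ 0 := by exact_mod_cast Fintype.card_ne_zero
  refine ⟨(0, fun _ => s / Fintype.card ι), ?_⟩
  simp only [ellG_apply, Finset.sum_const, Finset.card_univ, nsmul_eq_mul, Pi.zero_apply,
    Int.cast_zero, zero_mul, mul_zero, sub_zero]
  field_simp

open Classical in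
/-- the basic function -/
noncomputable def eG (g : GG S ι) : ℝ≥0∞ :=
  if 0 ≤ g.1 then ENNReal.ofReal (Real.exp (-(2 * π * ∑ j, Real.exp (g.2 j)))) else 0

omit [Fintype S] in
theorem eG_le_one (g : GG S ι) : eG g ≤ 1 := by
  unfold eG
  split_ifs
  · exact ENNReal.ofReal_le_one.2 (Real.exp_le_one_iff.2 (neg_nonpos.2 (by positivity)))
  · exact zero_le

theorem measurable_eG : Measurable (eG : GG S ι → ℝ≥0∞) := by
  unfold eG
  refine Measurable.ite (measurable_fst (MeasurableSet.of_discrete (s := {v : S → ℤ | 0 ≤ v}))) ?_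
    measurable_const
  fun_prop

/-- the logarithmic Gaussian -/
noncomputable def kap (a s : ℝ) : ℝ≥0∞ := ENNReal.ofReal (Real.exp (s / 2 - s ^ 2 / (4 * a)))

theorem measurable_kap (a : ℝ) : Measurable (kap a) := by unfold kap; fun_prop

theorem kap_neg (a s : ℝ) : (kap a (-s)).toReal = Real.exp (-s) * (kap a s).toReal := by
  rw [kap, kap, ENNReal.toReal_ofReal (Real.exp_pos _).le,
    ENNReal.toReal_ofReal (Real.exp_pos _).le, ← Real.exp_add]
  congr 1
  ring

theorem kap_le {a : ℝ} (ha : 0 < a) (σ s : ℝ) :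
    kap a s ≤ ENNReal.ofReal (Real.exp (a * (σ - 1 / 2) ^ 2) * Real.exp (σ * s)) := by
  rw [← Real.exp_add]
  refine ENNReal.ofReal_le_ofReal (Real.exp_le_exp.2 ?_)
  have h : a * (σ - 1 / 2) ^ 2 + σ * s - (s / 2 - s ^ 2 / (4 * a)) =
      a * (σ - 1 / 2 + s / (2 * a)) ^ 2 := by field_simp; ring
  nlinarith [mul_nonneg ha.le (sq_nonneg (σ - 1 / 2 + s / (2 * a)))]

theorem kap_le_abs {a : ℝ} (ha : 0 < a) (s : ℝ) :
    kap a s ≤ ENNReal.ofReal (Real.exp (a * (5 / 2) ^ 2) * Real.exp (-(2 * |s|))) := by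
  rcases le_total s 0 with h | h
  · refine (kap_le ha 2 s).trans (ENNReal.ofReal_le_ofReal ?_)
    rw [abs_of_nonpos h, mul_neg, neg_neg]
    gcongr
    norm_num
  · refine (kap_le ha (-2) s).trans (le_of_eq ?_)
    rw [abs_of_nonneg h]
    norm_num

/-- the radial weight, in logarithmic coordinates -/
noncomputable def TG (ι : Type) [Fintype ι] (q : S → ℝ) (κ : ℝ → ℝ≥0∞) (s : ℝ) : ℝ≥0∞ :=
  ∫⁻ g, eG g * κ (ellG q g - s) ∂muG S ι

end Vale.Agent.P016Z.Sc
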