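import Vale.Agent.P016Z.Sc.Val
import Vale.Agent.P016Z.Sc.Mod
import Vale.Agent.P016Z.Pois.Basic
import Mathlib.NumberTheory.NumberField.FractionalIdeal

/-!
P016, block SC: the theta series on the scale group and its functional equation.
-/

open NumberField Finset Module
open scoped nonZeroDivisors Real

set_option linter.unusedSectionVars false

namespace Vale.Agent.P016Z.Sc

open TH Pois

variable {K : Type} [Field K] [NumberField K]

section basis

variable {κ : Type} [Fintype κ] [DecidableEq κ] (b : Basis κ ℚ K)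

theorem lat_eq (n : κ → ℤ) : lat b n = ∑ i, (n i : ℚ) • b i := by
  refine sum_congr rfl fun i _ => ?_
  rw [Algebra.smul_def, map_intCast]

theorem lat_inj : Function.Injective (lat b) := by
  intro n n' h
  funext i
  have h1 := congrArg (fun x => b.repr x i) h
  simp only [lat_eq, Basis.repr_sum_self] at h1
  exact_mod_cast h1

theorem mem_dual (y : K) :
    (∃ k, lat b.traceDual k = y) ↔ ∀ n, ∃ z : ℤ, trR (lat b n * y) = z := by
  constructor
  · rintro ⟨k, rfl⟩ n
    refine ⟨∑ i, n i * k i, ?_⟩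
    rw [trR, lat_eq, lat_eq, sum_mul_sum]
    simp only [smul_mul_smul_comm, map_sum, map_smul, Basis.trace_mul_traceDual, smul_eq_mul,
      mul_ite, mul_one, mul_zero, sum_ite_eq, mem_univ, if_true]
    push_cast
    rfl
  · intro h
    choose z hz using fun i => h (Pi.single i 1)
    refine ⟨z, ?_⟩
    rw [lat_eq]
    conv_rhs => rw [← b.traceDual.sum_repr y]
    refine sum_congr rfl fun i _ => ?_
    have h1 : lat b (Pi.single i 1) = b i := by
      rw [lat, sum_eq_single i (fun j _ hj => by simp [Pi.single_eq_of_ne hj]) (by simp)]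
      simp
    have h2 := hz i
    rw [h1, trR] at h2
    rw [Basis.traceDual_repr_apply, Algebra.traceForm_apply, mul_comm y]
    congr 1
    exact_mod_cast h2.symm

end basis

variable [Dat K]

/-- the lattices -/
def La (a c x : K) : Prop := a * x ∈ R K ∧ c * x ∈ Si K

theorem exists_basis {a c : K} (ha : a ≠ 0) (hc : c ≠ 0) :
    ∃ (κ : Type) (_ : Fintype κ) (_ : DecidableEq κ) (b : Basis κ ℚ K),
      ∀ x, La a c x ↔ ∃ n, lat b n = x := by
  classical
  have hQ := QK_ne K
  let L : Submodule (𝓞 K) K :=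
    { carrier := {x | La a c x}
      add_mem' := fun {x y} hx hy =>
        ⟨by rw [mul_add]; exact add_mem hx.1 hy.1, by rw [mul_add]; exact add_mem hx.2 hy.2⟩
      zero_mem' := ⟨by rw [mul_zero]; exact zero_mem _, by rw [mul_zero]; exact zero_mem _⟩
      smul_mem' := fun t x hx =>
        ⟨by rw [mul_smul_comm]; exact Subalgebra.smul_mem _ hx.1 t,
          by rw [mul_smul_comm]; exact Subalgebra.smul_mem _ hx.2 t⟩ }
  have hL : IsFractional (𝓞 K)⁰ L := by
    obtain ⟨m, hm, h1⟩ := exists_coprime_mul_mem_R a⁻¹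
    obtain ⟨k, h2⟩ := exists_pow_mul_mem_Si c⁻¹
    refine ⟨(m : 𝓞 K) * (Q K : 𝓞 K) ^ k, mem_nonZeroDivisors_of_ne_zero (mul_ne_zero
      (by exact_mod_cast ne_zero_of_coprime hm) (pow_ne_zero _ (by exact_mod_cast Q_ne K))),
      fun x hx => ⟨⟨(m : K) * (Q K : K) ^ k * x, isIntegral_of_mem ?_ ?_⟩, ?_⟩⟩
    · have := mul_mem (pow_mem (natCast_mem (R K) (Q K)) k) (mul_mem h1 hx.1)
      rwa [show (Q K : K) ^ k * (m * a⁻¹ * (a * x)) = m * (Q K : K) ^ k * x by field_simp] at this
    · have := mul_mem (natCast_mem (Si K) m) (mul_mem h2 hx.2)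
      rwa [show (m : K) * ((Q K : K) ^ k * c⁻¹ * (c * x)) = m * (Q K : K) ^ k * x by
        field_simp] at this
    · rw [Algebra.smul_def]
      push_cast
      rfl
  let I : FractionalIdeal (𝓞 K)⁰ K := ⟨L, hL⟩
  have h0 : I ≠ 0 := by
    obtain ⟨m, hm, h1⟩ := exists_coprime_mul_mem_R a
    obtain ⟨k, h2⟩ := exists_pow_mul_mem_Si c
    intro h
    have h3 : (m : K) * (Q K : K) ^ k ∈ I := by
      change La a c _
      constructor
      · have := mul_mem (pow_mem (natCast_mem (R K) (Q K)) k) h1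
        rwa [show (Q K : K) ^ k * (m * a) = a * (m * (Q K : K) ^ k) by ring] at this
      · have := mul_mem (natCast_mem (Si K) m) h2
        rwa [show (m : K) * ((Q K : K) ^ k * c) = c * (m * (Q K : K) ^ k) by ring] at this
    rw [h, FractionalIdeal.mem_zero_iff] at h3
    exact mul_ne_zero (by exact_mod_cast ne_zero_of_coprime hm) (pow_ne_zero _ hQ) h3
  refine ⟨_, inferInstance, inferInstance, basisOfFractionalIdeal K (Units.mk0 _ h0), fun x => ?_⟩
  have h1 := mem_span_basisOfFractionalIdeal K (I := Units.mk0 _ h0) (x := x)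
  rw [Submodule.mem_span_range_iff_exists_fun] at h1
  simp only [zsmul_eq_mul] at h1
  exact h1.symm

theorem dual_La {a c : K} (ha : a ≠ 0) (hc : c ≠ 0) (y : K) :
    (∀ x, La a c x → ∃ z : ℤ, trR (x * y) = z) ↔ La a⁻¹ (dif K / c) y := by
  constructor
  · intro h
    constructor
    · refine mem_R_of_psi fun r => ?_
      obtain ⟨k, hk⟩ := exists_pow_mul_mem_Si (c * (r * a⁻¹))
      obtain ⟨z, hz⟩ := h ((Q K : K) ^ k * (r * a⁻¹)) ⟨by
        rw [show a * ((Q K : K) ^ k * (r * a⁻¹)) = (Q K : K) ^ k * r by field_simp]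
        exact mul_mem (pow_mem (natCast_mem _ _) k) r.2, by rwa [mul_left_comm]⟩
      refine psi_eq_one (k := k) (a := z) ?_
      rw [← hz, ← Nat.cast_pow, ← Nat.cast_pow, mul_assoc, trR_natCast_mul, mul_assoc]
    · rw [div_mul_eq_mul_div, mul_div_assoc, dif_spec]
      intro s hs
      obtain ⟨m, hm, h1⟩ := exists_coprime_mul_mem_R (a * (s / c))
      obtain ⟨z, hz⟩ := h (m * (s / c)) ⟨by rwa [mul_left_comm], by
        rw [show c * (m * (s / c)) = m * s by field_simp]
        exact mul_mem (natCast_mem _ _) hs⟩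
      refine ⟨m, z, hm, ?_⟩
      rw [← hz, mul_assoc, trR_natCast_mul]
      congr 2
      ring
  · rintro ⟨h1, h2⟩ x hx
    rw [div_mul_eq_mul_div, mul_div_assoc, dif_spec] at h2
    obtain ⟨m, z, hm, hz⟩ := h2 _ hx.2
    obtain ⟨k, w, hw⟩ := trR_R (mul_mem hx.1 h1)
    rw [show c * x * (y / c) = x * y by field_simp] at hz
    rw [show a * x * (a⁻¹ * y) = x * y by field_simp] at hw
    exact int_of_pow_of_coprime hm hw hz

theorem mul_mem_congr {c c' : K} (hc : c ≠ 0) (hc' : c' ≠ 0) (h : vl c = vl c') (x : K) :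
    c * x ∈ Si K ↔ c' * x ∈ Si K := by
  by_cases hx : x = 0
  · simp only [hx, mul_zero]
  · rw [mem_Si_iff (mul_ne_zero hc hx), mem_Si_iff (mul_ne_zero hc' hx), vl_mul hc hx,
      vl_mul hc' hx, h]

variable (K) in
/-- the scale group of the field -/
abbrev GK : Type := GG (SS K) (io K)

/-- the scale of an element -/
noncomputable def posK (x : K) : GK K :=
  (vl x, fun j => Real.log (Complex.normSq ((cmK K).sig j x)))

theorem nsq_pos {x : K} (hx : x ≠ 0) (j : io K) : 0 < Complex.normSq ((cmK K).sig j x) :=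
  Complex.normSq_pos.2 ((map_ne_zero _).2 hx)

theorem posK_mul {x y : K} (hx : x ≠ 0) (hy : y ≠ 0) : posK (x * y) = posK x + posK y := by
  refine Prod.ext (vl_mul hx hy) (funext fun j => ?_)
  simp only [posK, map_mul, Prod.snd_add, Pi.add_apply]
  exact Real.log_mul (nsq_pos hx j).ne' (nsq_pos hy j).ne'

theorem posK_one : posK (1 : K) = 0 := Prod.ext vl_one (funext fun j => by simp [posK])

/-- the logarithm of the norm on the scale group -/
noncomputable abbrev lK : GK K →+ ℝ := ellG qS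

theorem lK_apply (g : GK K) : lK g = ∑ j, g.2 j - lS g.1 := rfl

theorem lK_pos {x : R K} (hx : x ≠ 0) : lK (posK (x : K)) = Real.log (Nr x) := by
  have h := log_nm hx
  rw [CM.nm, Real.log_prod fun j _ => (nsq_pos (coe_ne_zero hx) j).ne'] at h
  rw [lK_apply]
  simp only [posK]
  linarith

open Classical in
/-- the terms of the theta series -/
noncomputable def WK (x : K) (g : GK K) : ℝ :=
  if cv g.1 * x ∈ Si K then gs (fun j => Real.exp (g.2 j)) ((cmK K).em x) else 0

theorem WK_nonneg (x : K) (g : GK K) : 0 ≤ WK x g := by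
  unfold WK
  split_ifs
  · exact (gs_pos _ _).le
  · exact le_rfl

theorem WK_zero (g : GK K) : WK 0 g = 1 := by
  rw [WK, mul_zero, if_pos (zero_mem _), map_zero, gs_zero]

theorem WK_mul {n : K} (hn : n ≠ 0) (x : K) (g : GK K) : WK (n * x) g = WK x (g + posK n) := by
  unfold WK
  rw [← mul_assoc, mul_mem_congr (mul_ne_zero (cv_ne _) hn) (cv_ne (g + posK n).1)
    (by rw [vl_mul (cv_ne _) hn, vl_cv, vl_cv]; rfl)]
  congr 1
  unfold gs
  congr 3
  refine sum_congr rfl fun j _ => ?_
  simp only [posK, Prod.snd_add, Pi.add_apply, Real.exp_add, Real.exp_log (nsq_pos hn j), map_mul,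
    CM.em_apply]
  ring

variable (K) in
/-- the centre of the functional equation -/
noncomputable def dK : GK K := (vl (dif K), 0)

open Classical in
theorem WK_dual (y : K) (g : GK K) : WK y (dK K - g) =
    if dif K / cv g.1 * y ∈ Si K then gs (fun j => Real.exp (g.2 j))⁻¹ ((cmK K).em y) else 0 := by
  unfold WK
  rw [mul_mem_congr (cv_ne _) (div_ne_zero dif_ne (cv_ne g.1)) (by
    rw [vl_cv, div_eq_mul_inv, vl_mul dif_ne (inv_ne_zero (cv_ne _)), vl_inv, vl_cv]
    exact sub_eq_add_neg _ _)]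
  congr 2
  funext j
  simp [dK, Real.exp_neg]

theorem summable_WK (g : GK K) : Summable fun x : R K => WK (x : K) g := by
  obtain ⟨κ, _, _, b, hb⟩ := exists_basis (K := K) one_ne_zero (cv_ne g.1)
  have h1 : ∀ k, La 1 (cv g.1) (lat b k) := fun k => (hb _).2 ⟨k, rfl⟩
  let i : (κ → ℤ) → R K := fun k => ⟨lat b k, by simpa using (h1 k).1⟩
  have hi : Function.Injective i := fun k k' h => lat_inj b (congrArg Subtype.val h)
  rw [← hi.summable_iff]
  · refine (summable_gs (cmK K) b (t := fun j => Real.exp (g.2 j))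
      (fun j => Real.exp_pos _) 0).congr fun k => ?_
    change _ = WK (lat b k) g
    rw [WK, if_pos (h1 k).2, zero_add]
  · intro x hx
    refine if_neg fun h => hx ?_
    obtain ⟨k, hk⟩ := (hb x).1 ⟨by simp, h⟩
    exact ⟨k, Subtype.ext hk⟩

theorem summable_mul_WK {f : R K → ℂ} {B : ℝ} (hf : ∀ x, ‖f x‖ ≤ B) (g : GK K) :
    Summable fun x : R K => f x * (WK (x : K) g : ℂ) := by
  refine Summable.of_norm_bounded ((summable_WK g).mul_left B) fun x => ?_
  rw [norm_mul, Complex.norm_real, Real.norm_of_nonneg (WK_nonneg _ _)]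
  exact mul_le_mul_of_nonneg_right (hf x) (WK_nonneg _ _)

/-- the theta series -/
noncomputable def thK (f : R K → ℂ) (g : GK K) : ℂ := ∑' x : R K, f x * (WK (x : K) g : ℂ)

open Classical in
theorem pois_coset {n : R K} (hn : n ≠ 0) (g : GK K) {κ : Type} [Fintype κ] [DecidableEq κ]
    (b : Basis κ ℚ K) (hb : ∀ x, La (n : K)⁻¹ (cv g.1) x ↔ ∃ k, lat b k = x) {a : R K}
    (ha : cv g.1 * a ∈ Si K) :
    ((√|((Algebra.discr ℚ b : ℚ) : ℝ)| * Real.exp (∑ j, g.2 j) : ℝ) : ℂ) *
      thK (fun x => if n ∣ x - a then 1 else 0) g =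
      thK (fun y => E n (a * y)) (dK K - posK (n : K) - g) := by
  have hn' := coe_ne_zero hn
  have hp := (poisson_gs (cmK K) b (t := fun j => Real.exp (g.2 j)) (fun j => Real.exp_pos _)
    ((cmK K).em a)).tsum_eq
  have h1 : ∀ k, La (n : K)⁻¹ (cv g.1) (lat b k) := fun k => (hb _).2 ⟨k, rfl⟩
  have hb' : ∀ y, La (n : K) (dif K / cv g.1) y ↔ ∃ k, lat b.traceDual k = y := fun y => by
    rw [mem_dual, ← inv_inv (n : K), ← dual_La (inv_ne_zero hn') (cv_ne _)]
    exact ⟨fun h k => h _ (h1 k), fun h x hx => by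
      obtain ⟨k, rfl⟩ := (hb x).1 hx
      exact h k⟩
  have h2 : ∀ k, La (n : K) (dif K / cv g.1) (lat b.traceDual k) := fun k => (hb' _).2 ⟨k, rfl⟩
  let i : (κ → ℤ) → R K := fun k => a + n * ⟨_, (h1 k).1⟩
  have hiv : ∀ k, (i k : K) = a + lat b k := fun k => by
    change (a : K) + n * ((n : K)⁻¹ * lat b k) = _
    rw [mul_inv_cancel_left₀ hn']
  have hi : Function.Injective i := fun k k' h => lat_inj b (by
    have := congrArg Subtype.val h
    rwa [hiv, hiv, add_right_inj] at this)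
  let i' : (κ → ℤ) → R K := fun k => ⟨_, (h2 k).1⟩
  have hi' : Function.Injective i' := fun k k' h =>
    lat_inj b.traceDual (mul_left_cancel₀ hn' (congrArg Subtype.val h))
  have hW : ∀ y : K, WK (n * y) (dK K - posK (n : K) - g) = WK y (dK K - g) := fun y => by
    rw [WK_mul hn']; congr 1; abel
  rw [thK, thK, ← hi.tsum_eq, ← hi'.tsum_eq, Real.exp_sum]
  · refine Eq.trans ?_ (hp.symm.trans (tsum_congr fun k => ?_))
    · rw [Complex.ofReal_tsum]
      congr 1
      refine tsum_congr fun k => ?_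
      rw [if_pos (by simp [i]), one_mul, WK, if_pos, hiv, map_add]
      rw [hiv, mul_add]
      exact add_mem ha (h1 k).2
    · change _ = E n (a * i' k) * (WK (n * lat b.traceDual k) _ : ℂ)
      have h3 := (h2 k).2
      rw [hW, WK_dual, if_pos h3, mul_comm, ch_em_eq]
      congr 1
      rw [div_mul_eq_mul_div, mul_div_assoc, dif_spec] at h3
      obtain ⟨m, z, hm, hz⟩ := h3 _ ha
      have h4 := cv_ne g.1
      rw [show cv g.1 * a * (lat b.traceDual k / cv g.1) = lat b.traceDual k * a by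
        field_simp] at hz
      rw [← psi_eq_ee hm hz, E]
      congr 1
      change _ = (a : K) * (n * lat b.traceDual k) / n
      field_simp
  · intro y hy
    have h3 : WK (y : K) (dK K - posK (n : K) - g) ≠ 0 := fun h => hy (by simp [h])
    rw [← mul_inv_cancel_left₀ hn' (y : K), hW, WK_dual] at h3
    obtain ⟨k, hk⟩ := (hb' ((n : K)⁻¹ * y)).1
      ⟨by rw [mul_inv_cancel_left₀ hn']; exact y.2, by_contra fun h => h3 (if_neg h)⟩
    refine ⟨k, Subtype.ext ?_⟩
    change (n : K) * lat b.traceDual k = y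
    rw [hk, mul_inv_cancel_left₀ hn']
  · intro x hx
    have h3 : n ∣ x - a := by_contra fun h => hx (by simp [h])
    have h4 : cv g.1 * x ∈ Si K := by_contra fun h => hx (by simp [WK, h])
    obtain ⟨k, hk⟩ := (hb ((x : K) - a)).1 ⟨by
      have := (dvd_iff_div_mem hn).1 h3
      rwa [div_eq_inv_mul] at this, by rw [mul_sub]; exact sub_mem h4 ha⟩
    exact ⟨k, Subtype.ext (by rw [hiv, hk, add_sub_cancel])⟩

theorem exists_FE {n : R K} (hn : n ≠ 0) (v : SS K → ℤ) : ∃ V : ℝ, 0 < V ∧
    ∀ f : R K → ℂ, PerM n f → ∀ u : io K → ℝ, ((V * Real.exp (∑ j, u j) : ℝ) : ℂ) * thK f (v, u) =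
      thK (fhat n f) (dK K - posK (n : K) - (v, u)) := by
  classical
  obtain ⟨κ, _, _, b, hb⟩ := exists_basis (K := K) (inv_ne_zero (coe_ne_zero hn)) (cv_ne v)
  refine ⟨_, Real.sqrt_pos.2 (abs_pos.2 (discr_ne b)), fun f hf u => ?_⟩
  have := finite_Rs hn
  have := Fintype.ofFinite (Rs n)
  choose a ha1 ha2 using fun ρ : Rs n =>
    exists_R_near_mod (Quotient.out ρ) n hn 0 (inv_ne_zero (cv_ne v))
  have ha3 : ∀ ρ, cv v * a ρ ∈ Si K := fun ρ => by
    have := ha2 ρ
    rwa [sub_zero, div_inv_eq_mul, mul_comm] at this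
  have ha4 : ∀ ρ, rs n (a ρ) = ρ := fun ρ => (rs_eq.2 (ha1 ρ)).trans (rs_out ρ)
  have h1 : thK f (v, u) = ∑ ρ, f (a ρ) * thK (fun x => if n ∣ x - a ρ then 1 else 0) (v, u) := by
    simp only [thK, ← tsum_mul_left]
    rw [← Summable.tsum_finsetSum fun ρ _ => (summable_mul_WK (B := 1)
      (fun x => by split_ifs <;> simp) _).mul_left _]
    refine tsum_congr fun x => ?_
    simp only [← rs_eq, ha4, ← mul_assoc, mul_ite, mul_one, mul_zero]
    rw [← sum_mul, sum_ite_eq, if_pos (mem_univ _), hf (a (rs n x)) x (rs_eq.1 (ha4 _))]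
  have h2 : thK (fhat n f) (dK K - posK (n : K) - (v, u)) =
      ∑ ρ, f (a ρ) * thK (fun y => E n (a ρ * y)) (dK K - posK (n : K) - (v, u)) := by
    simp only [thK, ← tsum_mul_left]
    rw [← Summable.tsum_finsetSum fun ρ _ => (summable_mul_WK (B := 1)
      (fun x => (norm_E _ _).le) _).mul_left _]
    refine tsum_congr fun y => ?_
    simp only [← mul_assoc]
    rw [← sum_mul, fhat, rsum_eq_sum]
    congr 1
    exact sum_congr rfl fun ρ _ => ((hf.mul (E_per hn y)) _ _ (ha1 ρ)).symm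
  rw [h1, h2, mul_sum]
  refine sum_congr rfl fun ρ _ => ?_
  rw [← pois_coset hn (v, u) b hb (ha3 ρ), mul_left_comm]

open Classical in
theorem thK_dvd {n : R K} (hn : n ≠ 0) (c : ℂ) (g : GK K) :
    thK (fun y => if n ∣ y then c else 0) g = c * thK (fun _ => 1) (g + posK (n : K)) := by
  rw [thK, thK, ← (mul_right_injective₀ hn).tsum_eq, ← tsum_mul_left]
  · refine tsum_congr fun z => ?_
    rw [if_pos (dvd_mul_right _ _), one_mul, MulMemClass.coe_mul, WK_mul (coe_ne_zero hn)]
  · intro y hy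
    obtain ⟨z, hz⟩ : n ∣ y := by_contra fun h => hy (by simp [h])
    exact ⟨z, hz.symm⟩

theorem thK_one (g : GK K) : thK (fun _ => 1) g = ((∑' x : R K, WK (x : K) g : ℝ) : ℂ) := by
  simp only [thK, one_mul, Complex.ofReal_tsum]

theorem one_le_sum_WK (g : GK K) : 1 ≤ ∑' x : R K, WK (x : K) g := by
  have := (summable_WK g).le_tsum 0 fun x _ => WK_nonneg _ _
  rwa [ZeroMemClass.coe_zero, WK_zero] at this

theorem thK_one_ne (g : GK K) : thK (fun _ => 1) g ≠ 0 := by
  rw [thK_one]
  exact_mod_cast (one_pos.trans_le (one_le_sum_WK g)).ne'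

variable (K) in
/-- **the functional equation** -/
theorem exists_FE' : ∃ C : ℝ, 0 < C ∧ lK (dK K) = -(2 * Real.log C) ∧
    ∀ n : R K, n ≠ 0 → ∀ f : R K → ℂ, PerM n f → ∀ g : GK K,
      thK f g = (((C * Nr n)⁻¹ * Real.exp (-lK g) : ℝ) : ℂ) *
        thK (fhat n f) (dK K - posK (n : K) - g) := by
  classical
  choose V hV0 hV using fun (n : R K) (hn : n ≠ 0) (v : SS K → ℤ) => exists_FE hn v
  have ha : ∀ n hn v u, ((V n hn v * Real.exp (∑ j, u j) : ℝ) : ℂ) * thK (fun _ => 1) (v, u) =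
      Nr n * thK (fun _ => 1) (dK K - (v, u)) := fun n hn v u => by
    rw [hV n hn v _ (fun _ _ _ => rfl)]
    have h1 : fhat n (fun _ => 1) = fun y => if n ∣ y then (Nr n : ℂ) else 0 := funext fun y => by
      rw [← rsum_E hn, fhat]
      exact rsum_congr fun x => one_mul _
    rw [h1, thK_dvd hn]
    congr 2
    abel
  have hb : ∀ n hn v, V n hn v = Nr n * V 1 one_ne_zero v := fun n hn v => by
    have h1 := ha n hn v 0
    have h0 := ha 1 one_ne_zero v 0
    rw [Nr_one, Nat.cast_one, one_mul] at h0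
    rw [← h0, ← mul_assoc] at h1
    have h2 := mul_right_cancel₀ (thK_one_ne _) h1
    simp only [Pi.zero_apply, sum_const_zero, Real.exp_zero, mul_one] at h2
    exact_mod_cast h2
  have hc : ∀ v, V 1 one_ne_zero v = V 1 one_ne_zero 0 * Real.exp (-lS v) := fun v => by
    obtain ⟨m, hm, rfl⟩ := exists_R_vl v
    have hp : PerM m fun y => if m ∣ y then (1 : ℂ) else 0 := fun x y h => by
      have : m ∣ x ↔ m ∣ y := by
        rw [show x = (x - y) + y by ring]; exact dvd_add_right h
      simp only [this]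
    have h1 := hV m hm 0 _ hp 0
    have h2 : fhat m (fun y => if m ∣ y then (1 : ℂ) else 0) = fun _ => 1 := funext fun y => by
      rw [fhat, rsum, finsum_eq_single _ (rs m 0), (hp.mul (E_per hm y)).out 0, if_pos (dvd_zero _),
        zero_mul, E_zero, mul_one]
      intro t ht
      rw [if_neg, zero_mul]
      rwa [← rs_eq_zero, rs_out]
    have h3 := ha 1 one_ne_zero (vl (m : K)) (posK (m : K)).2
    rw [Nr_one, Nat.cast_one, one_mul] at h3
    rw [h2, thK_dvd hm, one_mul, show ((0, 0) : GK K) = 0 from rfl, zero_add, sub_zero] at h1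
    have h4 := mul_right_cancel₀ (thK_one_ne _) (h1.trans h3.symm)
    have h5 := lK_pos hm
    rw [lK_apply, sub_eq_iff_eq_add] at h5
    rw [h5, hb m hm, Real.exp_add, Real.exp_log (by exact_mod_cast Nr_pos hm)] at h4
    simp only [Pi.zero_apply, sum_const_zero, Real.exp_zero, mul_one] at h4
    have h6 : (Nr m : ℝ) ≠ 0 := by exact_mod_cast Nr_ne_zero hm
    have h7 := Complex.ofReal_injective h4
    rw [Real.exp_neg, eq_mul_inv_iff_mul_eq₀ (Real.exp_ne_zero _)]
    refine mul_left_cancel₀ h6 ?_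
    rw [h7]
    simp only [posK]
    ring
  set C := V 1 one_ne_zero 0 with hC
  have hC0 : 0 < C := hV0 _ _ _
  have hd : ∀ n : R K, n ≠ 0 → ∀ f : R K → ℂ, PerM n f → ∀ g : GK K,
      thK f g = (((C * Nr n)⁻¹ * Real.exp (-lK g) : ℝ) : ℂ) *
        thK (fhat n f) (dK K - posK (n : K) - g) := by
    rintro n hn f hf ⟨v, u⟩
    have h6 : (Nr n : ℝ) ≠ 0 := by exact_mod_cast Nr_ne_zero hn
    rw [← hV n hn v f hf u, ← mul_assoc, ← Complex.ofReal_mul, hb, hc, lK_apply, neg_sub,
      Real.exp_sub, Real.exp_neg]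
    have : (C * Nr n)⁻¹ * (Real.exp (lS v) / Real.exp (∑ j, u j)) *
        (Nr n * (C * (Real.exp (lS v))⁻¹) * Real.exp (∑ j, u j)) = 1 := by field_simp
    rw [this, Complex.ofReal_one, one_mul]
  refine ⟨C, hC0, ?_, hd⟩
  have h1 : fhat (1 : R K) (fun _ => 1) = fun _ => 1 := funext fun y => by
    rw [fhat, rsum_one (PerM.mul (h := fun _ => 1) (fun _ _ _ => rfl) (E_per one_ne_zero y)),
      zero_mul, E_zero, mul_one]
  have h2 := fun g => hd 1 one_ne_zero (fun _ => 1) (fun _ _ _ => rfl) g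
  simp only [h1, OneMemClass.coe_one, posK_one, sub_zero, Nr_one, Nat.cast_one, mul_one] at h2
  have h3 := h2 0
  rw [h2 (dK K - 0), sub_sub_cancel, ← mul_assoc, ← Complex.ofReal_mul] at h3
  have h4 := Complex.ofReal_eq_one.1 ((mul_eq_right₀ (thK_one_ne _)).1 h3.symm)
  rw [map_zero, neg_zero, Real.exp_zero, sub_zero] at h4
  have h5 : Real.exp (-lK (dK K)) = Real.exp (2 * Real.log C) := by
    rw [two_mul, Real.exp_add, Real.exp_log hC0]
    field_simp at h4
    linarith
  linarith [Real.exp_injective h5]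

end Vale.Agent.P016Z.Sc
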