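import Vale.Agent.P016Z.Base.Cls
import Vale.Agent.P016Z.Base.Psi
import Mathlib.RingTheory.DedekindDomain.AdicValuation

/-!
P016, block SC: valuations at the primes dividing `Q`, the product formula, the different.
-/

open NumberField IsDedekindDomain Finset

set_option linter.unusedSectionVars false

namespace Vale.Agent.P016Z.Sc

variable (K : Type) [Field K] [NumberField K] [Dat K]

/-- the primes dividing `Q` -/
abbrev SS : Type := HeightOneSpectrum (Si K)

variable {K}

/-- a generator of a prime -/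
noncomputable def gen (p : SS K) : Si K := Submodule.IsPrincipal.generator p.asIdeal

theorem span_gen (p : SS K) : p.asIdeal = Ideal.span {gen p} :=
  (Ideal.span_singleton_generator p.asIdeal).symm

theorem gen_ne (p : SS K) : gen p ≠ 0 := fun h =>
  p.ne_bot (by rw [span_gen, h, Ideal.span_singleton_zero])

theorem gen_ne' (p : SS K) : (gen p : K) ≠ 0 := fun h => gen_ne p (Subtype.ext h)

theorem gen_prime (p : SS K) : Prime (gen p) :=
  (Ideal.span_singleton_prime (gen_ne p)).1 (span_gen p ▸ p.isPrime)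

instance : Finite (SS K) := by
  have h1 := Ideal.finite_factors (I := Ideal.span {(Q K : Si K)})
    (by rw [Ne, Ideal.zero_eq_bot, Ideal.span_singleton_eq_bot]; exact Q_Si_ne)
  refine Set.finite_univ_iff.1 (h1.subset fun p _ => ?_)
  change p.asIdeal ∣ _
  rw [Ideal.dvd_span_singleton, span_gen, Ideal.mem_span_singleton]
  exact prime_dvd_Q (gen_prime p)

noncomputable instance : Fintype (SS K) := Fintype.ofFinite _

noncomputable instance : DecidableEq (SS K) := Classical.decEq _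

/-- the valuations -/
noncomputable def vl (x : K) : SS K → ℤ := fun p => -WithZero.log (p.valuation K x)

theorem vl_mul {x y : K} (hx : x ≠ 0) (hy : y ≠ 0) : vl (x * y) = vl x + vl y := by
  funext p
  simp only [vl, map_mul, Pi.add_apply]
  rw [WithZero.log_mul ((map_ne_zero _).2 hx) ((map_ne_zero _).2 hy), neg_add]

theorem vl_one : vl (1 : K) = 0 := by funext p; simp [vl]

theorem vl_inv (x : K) : vl x⁻¹ = -vl x := by funext p; simp [vl]

theorem vl_zpow (x : K) (n : ℤ) : vl (x ^ n) = n • vl x := by funext p; simp [vl]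

theorem vl_prod {α : Type*} (s : Finset α) {f : α → K} (hf : ∀ a, f a ≠ 0) :
    vl (∏ a ∈ s, f a) = ∑ a ∈ s, vl (f a) := by
  classical
  induction s using Finset.induction_on with
  | empty => simp [vl_one]
  | insert a s ha ih =>
    rw [prod_insert ha, sum_insert ha, vl_mul (hf a) (prod_ne_zero_iff.2 fun b _ => hf b), ih]

theorem mem_Si_iff {x : K} (hx : x ≠ 0) : x ∈ Si K ↔ 0 ≤ vl x := by
  have h1 : ∀ p : SS K, 0 ≤ vl x p ↔ p.valuation K x ≤ 1 := fun p => by
    rw [vl, neg_nonneg, WithZero.log_le_iff_le_exp ((map_ne_zero _).2 hx), WithZero.exp_zero]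
  constructor
  · exact fun h p => (h1 p).2 (p.valuation_le_one (K := K) ⟨x, h⟩)
  · intro h
    obtain ⟨y, rfl⟩ := HeightOneSpectrum.mem_integers_of_valuation_le_one (R := Si K) K x
      fun p => (h1 p).1 (h p)
    exact y.2

theorem vl_of_isUnit {x : Si K} (hx : IsUnit x) : vl (x : K) = 0 := by
  have h0 : (x : K) ≠ 0 := fun h => hx.ne_zero (Subtype.ext h)
  have h1 := (isUnit_Si_iff h0).1 hx
  have h2 := (mem_Si_iff (inv_ne_zero h0)).1 h1.2
  rw [vl_inv] at h2
  exact le_antisymm (neg_nonneg.1 h2) ((mem_Si_iff h0).1 x.2)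

theorem vl_gen (p : SS K) : vl (gen p : K) = Pi.single p 1 := by
  funext p'
  have h1 : p'.valuation K (gen p : K) = p'.intValuation (gen p) := p'.valuation_of_algebraMap _
  rw [vl, h1]
  by_cases h : p' = p
  · subst h
    rw [p'.intValuation_singleton (gen_ne _) (span_gen _)]
    simp
  · rw [HeightOneSpectrum.intValuation_eq_one_iff.2, Pi.single_eq_of_ne h]
    · simp
    · intro h2
      refine h (HeightOneSpectrum.ext (p.isMaximal.eq_of_le p'.isPrime.ne_top ?_).symm)
      rwa [span_gen, Ideal.span_singleton_le_iff_mem]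

/-- an element with given valuations -/
noncomputable def cv (v : SS K → ℤ) : K := ∏ p, (gen p : K) ^ v p

theorem cv_ne (v : SS K → ℤ) : cv v ≠ 0 := prod_ne_zero_iff.2 fun p _ => zpow_ne_zero _ (gen_ne' p)

theorem vl_cv (v : SS K → ℤ) : vl (cv v) = v := by
  rw [cv, vl_prod _ fun p => zpow_ne_zero _ (gen_ne' p)]
  simp only [vl_zpow, vl_gen, ← Pi.single_smul', smul_eq_mul, mul_one]
  exact univ_sum_single v

theorem exists_R_vl (v : SS K → ℤ) : ∃ m : R K, m ≠ 0 ∧ vl (m : K) = v := by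
  obtain ⟨m, hm, h⟩ := exists_coprime_mul_mem_R (cv v)
  have hm0 : (m : K) ≠ 0 := by exact_mod_cast ne_zero_of_coprime hm
  refine ⟨⟨_, h⟩, fun h0 => mul_ne_zero hm0 (cv_ne v) (congrArg Subtype.val h0), ?_⟩
  have h1 := vl_of_isUnit (isUnit_natCast_Loc (K := K) (T := copT (Q K)) hm (ne_zero_of_coprime hm))
  change vl ((m : K) * cv v) = v
  rw [vl_mul hm0 (cv_ne v), vl_cv, show vl (m : K) = 0 from h1, zero_add]

/-- the norms of the primes -/
noncomputable def qS (p : SS K) : ℝ := Ns (gen p)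

theorem Ns_ne_zero {x : Si K} (hx : x ≠ 0) : Ns x ≠ 0 :=
  haveI := finite_Rs_Si hx
  Nat.card_pos.ne'

theorem one_lt_qS (p : SS K) : 1 < qS p := by
  have h1 := Ns_ne_zero (gen_ne p)
  have h2 : Ns (gen p) ≠ 1 := fun h => (gen_prime p).not_isUnit (Nq_eq_one_iff.1 h)
  unfold qS
  exact_mod_cast (by omega : 1 < Ns (gen p))

/-- the logarithm of the norm at the primes dividing `Q` -/
noncomputable def lS (v : SS K → ℤ) : ℝ := ∑ p, (v p : ℝ) * Real.log (qS p)

theorem lS_add (v w : SS K → ℤ) : lS (v + w) = lS v + lS w := by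
  simp only [lS, Pi.add_apply, Int.cast_add, add_mul, sum_add_distrib]

theorem lS_zero : lS (0 : SS K → ℤ) = 0 := by simp [lS]

theorem log_Ns {x : Si K} (hx : x ≠ 0) : Real.log (Ns x) = lS (vl (x : K)) := by
  have hu : ∀ u : Si K, IsUnit u → Real.log (Ns u) = lS (vl (u : K)) := fun u hu => by
    rw [vl_of_isUnit hu, lS_zero, Ns, Nq_eq_one_iff.2 hu, Nat.cast_one, Real.log_one]
  have hm : ∀ a b : Si K, a ≠ 0 → b ≠ 0 → Real.log (Ns a) = lS (vl (a : K)) →
      Real.log (Ns b) = lS (vl (b : K)) → Real.log (Ns (a * b)) = lS (vl ((a * b : Si K) : K)) := by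
    intro a b ha hb h1 h2
    rw [Ns, Nq_mul, Nat.cast_mul, Real.log_mul (by exact_mod_cast Ns_ne_zero ha)
      (by exact_mod_cast Ns_ne_zero hb), h1, h2, MulMemClass.coe_mul,
      vl_mul (fun h => ha (Subtype.ext h)) (fun h => hb (Subtype.ext h)), lS_add]
  induction x using UniqueFactorizationMonoid.induction_on_prime with
  | h₁ => exact absurd rfl hx
  | h₂ u h => exact hu u h
  | h₃ a π ha hπ ih =>
    refine hm π a hπ.ne_zero ha ?_ (ih ha)
    let p : SS K := ⟨Ideal.span {π}, (Ideal.span_singleton_prime hπ.ne_zero).2 hπ, by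
      rw [Ne, Ideal.span_singleton_eq_bot]; exact hπ.ne_zero⟩
    obtain ⟨u, hu'⟩ := Ideal.span_singleton_eq_span_singleton.1 (span_gen p).symm
    rw [← hu']
    refine hm _ _ (gen_ne p) u.ne_zero ?_ (hu _ u.isUnit)
    rw [vl_gen, lS, sum_eq_single p (fun b _ hb => by simp [Pi.single_eq_of_ne hb]) (by simp)]
    simp [qS]

/-- the product formula -/
theorem log_nm {x : R K} (hx : x ≠ 0) :
    Real.log ((cmK K).nm (x : K)) = Real.log (Nr x) + lS (vl (x : K)) := by
  have h0 : ∀ y : 𝓞 K, y ≠ 0 →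
      Real.log ((cmK K).nm (y : K)) = Real.log (Nr (toR y)) + lS (vl (y : K)) := fun y hy => by
    have hy' : (y : K) ≠ 0 := by exact_mod_cast hy
    have h1 : toR y ≠ 0 := fun h => hy' (congrArg (fun t : R K => (t : K)) h)
    have h2 : toSi y ≠ 0 := fun h => hy' (congrArg (fun t : Si K => (t : K)) h)
    rw [nm_eq_mul hy, Real.log_mul (by exact_mod_cast Nr_ne_zero h1)
      (by exact_mod_cast Ns_ne_zero h2), log_Ns h2, coe_toSi]
  obtain ⟨k, hk⟩ := exists_pow_mul_mem_Si (x : K)
  have hx' := coe_ne_zero hx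
  have hQ : (Q K : K) ^ k ≠ 0 := pow_ne_zero _ (QK_ne K)
  have hu : Nr ((Q K : R K) ^ k) = 1 := Nq_eq_one_iff.2 (isUnit_Q.pow k)
  have h1 := h0 ((Q K : 𝓞 K) ^ k) (pow_ne_zero _ (by exact_mod_cast Q_ne K))
  let y : 𝓞 K := ⟨_, isIntegral_of_mem (mul_mem (pow_mem (natCast_mem _ _) k) x.2) hk⟩
  have h2 := h0 y fun h => mul_ne_zero hQ hx' (congrArg (fun t : 𝓞 K => (t : K)) h)
  have e1 : toR y = (Q K : R K) ^ k * x := Subtype.ext (by push_cast; rfl)
  have e2 : (y : K) = (Q K : K) ^ k * x := rfl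
  have e3 : (((Q K : 𝓞 K) ^ k : 𝓞 K) : K) = (Q K : K) ^ k := by push_cast; rfl
  rw [map_pow, map_natCast, hu, e3] at h1
  rw [e1, e2, Nr_mul, hu, one_mul, (cmK K).nm_mul, vl_mul hQ hx', lS_add,
    Real.log_mul ((cmK K).nm_pos hQ).ne' ((cmK K).nm_pos hx').ne', h1] at h2
  simp only [Nat.cast_one, Real.log_one] at h2
  linarith

/-- the trace has denominator prime to `Q` -/
def TrS (y : K) : Prop := ∃ (m : ℕ) (b : ℤ), m.Coprime (Q K) ∧ (m : ℝ) * trR y = b

theorem TrS.add {x y : K} (hx : TrS x) (hy : TrS y) : TrS (x + y) := by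
  obtain ⟨m, b, hm, h⟩ := hx
  obtain ⟨m', b', hm', h'⟩ := hy
  refine ⟨m * m', m' * b + m * b', Nat.Coprime.mul_left hm hm', ?_⟩
  rw [trR_add]
  push_cast
  linear_combination m' * h + m * h'

variable (K) in
/-- the different at the primes dividing `Q` -/
theorem exists_dif : ∃ δ : K, δ ≠ 0 ∧ ∀ y : K, δ * y ∈ Si K ↔ ∀ s ∈ Si K, TrS (s * y) := by
  classical
  set d : K := ((discr K).natAbs : K) with hd
  have hd0 : d ≠ 0 := by
    rw [hd]; exact_mod_cast Int.natAbs_ne_zero.2 (discr_ne_zero K)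
  have h1 : ∀ y : K, (∀ s ∈ Si K, TrS (s * y)) → d * y ∈ Si K := by
    intro y hy
    let b := RingOfIntegers.basis K
    choose m c hm hc using fun i => hy (b i : K) (coe_mem_Loc _)
    have h2 : (∏ i, m i).Coprime (Q K) := Nat.Coprime.prod_left fun i _ => hm i
    refine ⟨∏ i, m i, h2, ?_⟩
    rw [mul_left_comm]
    refine isIntegral_discr_mul fun x => ?_
    rw [← b.sum_repr x]
    refine sum_induction _ (fun x : 𝓞 K => ∃ n : ℤ, trR ((x : K) * ((∏ i, m i : ℕ) * y)) = n)
      (fun a a' ⟨n, hn⟩ ⟨n', hn'⟩ => ⟨n + n', by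
        push_cast at hn hn' ⊢
        rw [add_mul, trR_add, hn, hn']⟩) ⟨0, by simp [trR_zero]⟩ fun i _ => ?_
    obtain ⟨e, he⟩ := dvd_prod_of_mem m (mem_univ i)
    refine ⟨b.repr x i * e * c i, ?_⟩
    have h3 : ∀ (z : ℤ) (w : K), trR ((z : K) * w) = z * trR w := fun z w => by
      rw [trR, trR, ← zsmul_eq_mul, map_zsmul]; simp
    have h4 : ((b.repr x i • b i : 𝓞 K) : K) * ((∏ i, m i : ℕ) * y) =
        ((b.repr x i * e * m i : ℤ) : K) * ((b i : K) * y) := by
      have h5 : ((b.repr x i • b i : 𝓞 K) : K) = (b.repr x i : K) * (b i : K) := by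
        rw [← zsmul_eq_mul]
        exact map_zsmul (algebraMap (𝓞 K) K) _ _
      rw [he, h5]
      push_cast
      ring
    rw [h4, h3]
    push_cast
    rw [mul_assoc, hc]
  let I : Ideal (Si K) :=
    { carrier := {t | ∀ s ∈ Si K, TrS (s * ((t : K) / d))}
      add_mem' := fun {a b} ha hb s hs => by
        push_cast
        rw [add_div, mul_add]
        exact (ha s hs).add (hb s hs)
      zero_mem' := fun s _ => ⟨1, 0, Nat.coprime_one_left _, by simp [trR_zero]⟩
      smul_mem' := fun c t ht s hs => by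
        have := ht (s * c) (mul_mem hs c.2)
        rwa [mul_assoc, ← mul_div_assoc] at this }
  obtain ⟨γ, hγ⟩ := (IsPrincipalIdealRing.principal I).principal
  have h2 : ∀ t : Si K, (∀ s ∈ Si K, TrS (s * ((t : K) / d))) ↔ γ ∣ t := fun t => by
    rw [← Ideal.mem_span_singleton, ← Ideal.submodule_span_eq, ← hγ]
    rfl
  have hγ0 : γ ≠ 0 := by
    rintro rfl
    have h3 := (h2 ⟨d, natCast_mem _ _⟩).1 fun s hs => by
      rw [div_self hd0, mul_one]; exact trR_Si hs
    exact hd0 (congrArg Subtype.val (zero_dvd_iff.1 h3))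
  have hγ1 : (γ : K) ≠ 0 := fun h => hγ0 (Subtype.ext h)
  refine ⟨d / γ, div_ne_zero hd0 hγ1, fun y => ⟨fun h s hs => ?_, fun h => ?_⟩⟩
  · have h3 := (h2 γ).2 dvd_rfl _ (mul_mem hs h)
    rwa [show s * (d / γ * y) * (γ / d) = s * y by field_simp] at h3
  · have h3 := (h2 ⟨_, h1 y h⟩).1 fun s hs => by
      rw [mul_div_cancel_left₀ _ hd0]; exact h s hs
    rw [dvd_iff_div_mem_Si hγ0] at h3
    rwa [div_mul_eq_mul_div]

variable (K) in
/-- a generator of the different -/
noncomputable def dif : K := (exists_dif K).choose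

theorem dif_ne : dif K ≠ 0 := (exists_dif K).choose_spec.1

theorem dif_spec (y : K) : dif K * y ∈ Si K ↔ ∀ s ∈ Si K, TrS (s * y) :=
  (exists_dif K).choose_spec.2 y

end Vale.Agent.P016Z.Sc
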